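import Vale.Agent.P046.Process

/-!
P046: counting identities in a linear 3-uniform hypergraph.
-/

namespace P046

open Finset

variable {α : Type} [DecidableEq α] {L : LH α}

namespace LH

/-- The edges at `a`. -/
def star (L : LH α) (W : Finset α) (a : α) : Finset (Finset α) := (L.tris W).filter (a ∈ ·)

theorem deg_eq (W : Finset α) (a : α) : L.deg W a = (L.star W a).card := rfl

theorem deg_pos {W t : Finset α} (ht : t ∈ L.tris W) {a : α} (ha : a ∈ t) : 1 ≤ L.deg W a :=
  Finset.card_pos.2 ⟨t, by simp [ht, ha]⟩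

/-- Double counting. -/
theorem sum_tris_sum (W : Finset α) (φ : α → ℝ) :
    ∑ t ∈ L.tris W, ∑ a ∈ t, φ a = ∑ a ∈ W, (L.deg W a : ℝ) * φ a := by
  rw [Finset.sum_comm' (t' := W) (s' := fun a => L.star W a)
    (h := fun t a => ?_)]
  · refine Finset.sum_congr rfl fun a _ => ?_
    rw [Finset.sum_const, nsmul_eq_mul, deg_eq]
  · simp only [star, Finset.mem_filter]
    exact ⟨fun h => ⟨⟨h.1, h.2⟩, (mem_tris.1 h.1).2 h.2⟩, fun h => ⟨h.1.1, h.1.2⟩⟩

theorem sum_deg (W : Finset α) : ∑ a ∈ W, (L.deg W a : ℝ) = 3 * (L.tris W).card := by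
  have := sum_tris_sum (L := L) W (fun _ => 1)
  simp only [mul_one, Finset.sum_const, nsmul_eq_mul] at this
  rw [← this, Finset.sum_congr rfl fun t ht => by rw [card_tri ht]]
  simp [mul_comm]

theorem inter_card_le {s t : Finset α} (hs : s ∈ L.H) (ht : t ∈ L.H) (h : s ≠ t) :
    (s ∩ t).card ≤ 1 := by
  refine Finset.card_le_one.2 fun a ha b hb => ?_
  simp only [Finset.mem_inter] at ha hb
  by_contra hab
  exact h (L.linear s hs t ht a ha.1 b hb.1 ha.2 hb.2 hab)

theorem tris_sdiff (W t : Finset α) :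
    L.tris (W \ t) = (L.tris W).filter (fun s => Disjoint s t) := by
  ext s
  simp only [mem_tris, Finset.mem_filter, Finset.subset_sdiff]
  tauto

/-- The edges at `f` hit by `t`. -/
def hit (L : LH α) (W t : Finset α) (f : α) : Finset (Finset α) :=
  (L.star W f).filter (fun s => ¬ Disjoint s t)

theorem deg_sdiff (W t : Finset α) (f : α) :
    L.deg (W \ t) f + (L.hit W t f).card = L.deg W f := by
  rw [deg_eq, deg_eq, hit, star, star, tris_sdiff, Finset.filter_filter, Finset.filter_filter]
  conv_rhs => rw [← Finset.card_filter_add_card_filter_not (fun s => Disjoint s t)]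
  simp only [Finset.filter_filter]
  congr 2
  ext s; simp [and_comm]

/-- `k_t(f)` as a sum over the nodes of `t`. -/
theorem hit_card {W t : Finset α} (ht : t ∈ L.tris W) {f : α} (hf : f ∉ t) :
    (L.hit W t f).card = ∑ g ∈ t, ((L.star W f).filter (g ∈ ·)).card := by
  rw [hit, ← Finset.card_biUnion]
  · congr 1
    ext s
    simp only [Finset.mem_filter, Finset.mem_biUnion, Finset.not_disjoint_iff]
    exact ⟨fun ⟨h, g, h1, h2⟩ => ⟨g, h2, h, h1⟩, fun ⟨g, h2, h, h1⟩ => ⟨h, g, h1, h2⟩⟩
  · intro g hg g' hg' hgg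
    simp only [Function.onFun, Finset.disjoint_left, Finset.mem_filter]
    rintro s ⟨hs, hgs⟩ ⟨-, hgs'⟩
    have hs' := (Finset.mem_filter.1 hs)
    have := L.linear s (mem_tris.1 hs'.1).1 t (mem_tris.1 ht).1 g hgs g' hgs' hg hg' hgg
    exact hf (this ▸ hs'.2)

theorem star_filter_card_le {W : Finset α} {f g : α} (h : f ≠ g) :
    ((L.star W f).filter (g ∈ ·)).card ≤ 1 := by
  refine Finset.card_le_one.2 fun s hs s' hs' => ?_
  simp only [star, Finset.mem_filter] at hs hs'
  exact L.linear s (mem_tris.1 hs.1.1).1 s' (mem_tris.1 hs'.1.1).1 f hs.1.2 g hs.2 hs'.1.2 hs'.2 h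

theorem hit_card_le {W t : Finset α} (ht : t ∈ L.tris W) {f : α} (hf : f ∉ t) :
    (L.hit W t f).card ≤ 3 := by
  rw [hit_card ht hf, ← card_tri ht, Finset.card_eq_sum_ones t]
  exact Finset.sum_le_sum fun g hg => star_filter_card_le fun e => hf (e ▸ hg)

/-- The total decrease of the degree of `f`. -/
theorem sum_hit {W : Finset α} (f : α) :
    ∑ t ∈ (L.tris W).filter (f ∉ ·), ((L.hit W t f).card : ℝ)
      = ∑ s ∈ L.star W f, ∑ g ∈ s.erase f, ((L.deg W g : ℝ) - 1) := by
  have h1 : ∀ t ∈ (L.tris W).filter (f ∉ ·), ((L.hit W t f).card : ℝ)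
      = ∑ s ∈ L.star W f, ((t ∩ s).card : ℝ) := by
    intro t ht
    rw [Finset.mem_filter] at ht
    rw [hit_card ht.1 ht.2]
    push_cast
    simp only [Finset.card_filter, Nat.cast_sum]
    rw [Finset.sum_comm]
    refine Finset.sum_congr rfl fun s _ => ?_
    rw [← Finset.filter_mem_eq_inter, Finset.card_filter, Nat.cast_sum]
  rw [Finset.sum_congr rfl h1, Finset.sum_comm]
  refine Finset.sum_congr rfl fun s hs => ?_
  simp only [star, Finset.mem_filter] at hs
  have h2 : ∀ t : Finset α, ((t ∩ s).card : ℝ) = ∑ g ∈ s, if g ∈ t then 1 else 0 := by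
    intro t
    rw [Finset.inter_comm, ← Finset.filter_mem_eq_inter, Finset.card_filter, Nat.cast_sum]
    simp
  simp only [h2]
  rw [Finset.sum_comm]
  refine (Finset.sum_erase s (a := f) (Finset.sum_eq_zero fun t ht => ?_)).symm.trans ?_
  · rw [if_neg (Finset.mem_filter.1 ht).2]
  refine Finset.sum_congr rfl fun g hg => ?_
  rw [Finset.mem_erase] at hg
  rw [Finset.sum_boole, Finset.filter_filter]
  have h3 : (L.tris W).filter (fun t => f ∉ t ∧ g ∈ t) = (L.star W g).erase s := by
    ext t
    simp only [star, Finset.mem_filter, Finset.mem_erase]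
    constructor
    · rintro ⟨h, hft, hgt⟩
      exact ⟨fun e => hft (e ▸ hs.2), h, hgt⟩
    · rintro ⟨hne, h, hgt⟩
      exact ⟨h, fun hft => hne (L.linear t (mem_tris.1 h).1 s (mem_tris.1 hs.1).1 f hft g hgt hs.2 hg.2
        (Ne.symm hg.1)), hgt⟩
  rw [h3, Finset.card_erase_of_mem (by simp [star, hs.1, hg.2]), ← deg_eq,
    Nat.cast_sub (deg_pos hs.1 hg.2)]
  simp

/-- Exact change of the number of edges. -/
theorem card_tris_sdiff {W t : Finset α} (ht : t ∈ L.tris W) :
    ((L.tris (W \ t)).card : ℝ) + ∑ a ∈ t, (L.deg W a : ℝ) = (L.tris W).card + 2 := by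
  have h1 : (L.tris W).filter (fun s => ¬ Disjoint s t)
      = insert t (t.biUnion fun a => (L.star W a).erase t) := by
    ext s
    simp only [Finset.mem_filter, Finset.mem_insert, Finset.mem_biUnion, Finset.mem_erase, star,
      Finset.not_disjoint_iff]
    constructor
    · rintro ⟨hs, a, h1, h2⟩
      by_cases h : s = t
      · exact .inl h
      · exact .inr ⟨a, h2, h, hs, h1⟩
    · rintro (rfl | ⟨a, h2, -, hs, h1⟩)
      · obtain ⟨a, ha⟩ := Finset.card_pos.1 (by rw [card_tri ht]; norm_num : 0 < s.card)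
        exact ⟨ht, a, ha, ha⟩
      · exact ⟨hs, a, h1, h2⟩
  have h2 : ((L.tris W).filter (fun s => ¬ Disjoint s t)).card + 2
      = ∑ a ∈ t, L.deg W a := by
    rw [h1, Finset.card_insert_of_notMem (by simp), Finset.card_biUnion]
    · have : ∀ a ∈ t, L.deg W a = ((L.star W a).erase t).card + 1 := fun a ha => by
        rw [Finset.card_erase_add_one (by simp [star, ht, ha]), deg_eq]
      rw [Finset.sum_congr rfl this, Finset.sum_add_distrib, Finset.sum_const, card_tri ht]
      simp
    · intro a ha b hb hab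
      simp only [Function.onFun, Finset.disjoint_left, Finset.mem_erase, star, Finset.mem_filter]
      rintro s ⟨hne, hs, has⟩ ⟨-, -, hbs⟩
      exact hne (L.linear s (mem_tris.1 hs).1 t (mem_tris.1 ht).1 a has b hbs ha hb hab)
  have h3 := Finset.card_filter_add_card_filter_not (s := L.tris W) (fun s => Disjoint s t)
  rw [← tris_sdiff] at h3
  have h4 : (L.tris (W \ t)).card + ∑ a ∈ t, L.deg W a = (L.tris W).card + 2 := by omega
  exact_mod_cast h4

/-- Linearity bounds the degree by half the number of nodes. -/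
theorem two_deg_le {W : Finset α} {a : α} (ha : a ∈ W) : 2 * L.deg W a + 1 ≤ W.card := by
  have h1 : ((L.star W a).biUnion fun s => s.erase a).card = 2 * L.deg W a := by
    rw [Finset.card_biUnion]
    · rw [Finset.sum_congr rfl fun s hs => by
        rw [Finset.card_erase_of_mem (Finset.mem_filter.1 hs).2,
          card_tri (Finset.mem_filter.1 hs).1]]
      simp [deg_eq, mul_comm]
    · intro s hs s' hs' hne
      simp only [Function.onFun, Finset.disjoint_left, Finset.mem_erase]
      rintro g ⟨hga, hgs⟩ ⟨-, hgs'⟩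
      simp only [star, Finset.coe_filter, Set.mem_ofPred_eq] at hs hs'
      exact hne (L.linear s (mem_tris.1 hs.1).1 s' (mem_tris.1 hs'.1).1 a hs.2 g hgs hs'.2 hgs'
        (Ne.symm hga))
  have h2 : ((L.star W a).biUnion fun s => s.erase a) ⊆ W.erase a := by
    intro g
    simp only [star, Finset.mem_biUnion, Finset.mem_filter, Finset.mem_erase]
    rintro ⟨s, ⟨hs, -⟩, hga, hgs⟩
    exact ⟨hga, (mem_tris.1 hs).2 hgs⟩
  have := Finset.card_le_card h2
  rw [Finset.card_erase_of_mem ha] at this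
  have := Finset.card_pos.2 ⟨a, ha⟩
  omega

end LH

end P046
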