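import Vale.Agent.P046.Psi

/-!
P046: elementary bounds for the Lyapunov function.
-/

namespace P046

theorem abs_dpsi (d : ℝ) : |dpsi d| ≤ 1/4 := by
  have := dpsi_bounds d
  rw [abs_le]; constructor <;> linarith

theorem psi_low {d : ℝ} (h : d ≤ -(1/20)) : psi d = -(107/1000) * d - 437/160000 := by
  rw [psi, cl_of_le h]; norm_num [gp]; ring

theorem psi_high {d : ℝ} (h : 1/5 ≤ d) : psi d = (31/125) * d - 12/625 := by
  rw [psi, cl_of_ge h]; norm_num [gp]; ring

theorem psi_mid_ge {d : ℝ} (h : -(1/20) ≤ d) (h' : d ≤ 1/5) : 3/4 * d ^ 2 ≤ psi d := by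
  rw [(psi_mid h h').1, mul_comm]
  exact mul_le_mul_of_nonneg_left (by nlinarith) (sq_nonneg d)

theorem psi_low_ge {d : ℝ} (h : d ≤ -(1/20)) : 1/20 * |d| ≤ psi d := by
  rw [psi_low h, abs_of_neg (by linarith)]; linarith

theorem psi_high_ge {d : ℝ} (h : 1/5 ≤ d) : 1/20 * |d| ≤ psi d := by
  rw [psi_high h, abs_of_pos (by linarith)]; linarith

theorem psi_nonneg (d : ℝ) : 0 ≤ psi d := by
  rcases le_total d (-(1/20)) with h | h
  · exact le_trans (by positivity) (psi_low_ge h)
  rcases le_total d (1/5) with h' | h'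
  · exact le_trans (by positivity) (psi_mid_ge h h')
  · exact le_trans (by positivity) (psi_high_ge h')

theorem abs_le_psi (d : ℝ) {τ : ℝ} (h0 : 0 < τ) (h1 : τ ≤ 1) : |d| ≤ τ + 20 * psi d / τ := by
  have hq : 20 * psi d ≤ 20 * psi d / τ := by
    rw [le_div_iff₀ h0]; nlinarith [psi_nonneg d]
  rcases le_total d (-(1/20)) with h | h
  · linarith [psi_low_ge h]
  rcases le_total d (1/5) with h' | h'
  · rw [← sub_le_iff_le_add', le_div_iff₀ h0]
    nlinarith [psi_mid_ge h h', sq_nonneg (|d| - τ), sq_abs d, abs_nonneg d]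
  · linarith [psi_high_ge h']

theorem dpsi_lin (d : ℝ) : |dpsi d * (1 + d) - 2 * d| ≤ 160 * psi d := by
  have hout : 1/20 ≤ |d| → 1/20 * |d| ≤ psi d → |dpsi d * (1 + d) - 2 * d| ≤ 160 * psi d := by
    intro h1 h2
    have := abs_sub (dpsi d * (1 + d)) (2 * d)
    rw [abs_mul, abs_mul, abs_two] at this
    have := mul_le_mul (abs_dpsi d) (abs_add_le 1 d) (abs_nonneg _) (by norm_num)
    rw [abs_one] at this
    linarith
  rcases le_total d (-(1/20)) with h | h
  · exact hout (by rw [abs_of_neg (by linarith)]; linarith) (psi_low_ge h)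
  rcases le_total d (1/5) with h' | h'
  · have e : dpsi d * (1 + d) - 2 * d = -(d ^ 2 * (1 + 7 * d + 4 * d ^ 2)) := by
      rw [(psi_mid h h').2, gp]; ring
    have hb : |1 + 7 * d + 4 * d ^ 2| ≤ 4 := abs_le.2 ⟨by nlinarith, by nlinarith⟩
    rw [e, abs_neg, abs_mul, abs_of_nonneg (sq_nonneg d)]
    nlinarith [psi_mid_ge h h', mul_le_mul_of_nonneg_left hb (sq_nonneg d)]
  · exact hout (by rw [abs_of_pos (by linarith)]; linarith) (psi_high_ge h')

theorem sq_le_psi {d : ℝ} (h : -1 ≤ d) :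
    d ^ 2 ≤ 60 * psi d + (1 + d) * max (d - 3) 0 := by
  have hm : 0 ≤ (1 + d) * max (d - 3) 0 := mul_nonneg (by linarith) (le_max_right _ _)
  rcases le_total d (-(1/20)) with h1 | h1
  · have := psi_low_ge h1
    rw [abs_of_neg (by linarith)] at this
    nlinarith
  rcases le_total d (1/5) with h' | h'
  · nlinarith [psi_mid_ge h1 h']
  have := psi_high_ge h'
  rw [abs_of_pos (by linarith)] at this
  rcases le_total d 3 with h3 | h3
  · nlinarith
  · nlinarith [mul_le_mul_of_nonneg_left (le_max_left (d - 3) 0) (by linarith : 0 ≤ 1 + d)]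

theorem psi_taylor (d Δ : ℝ) : psi (d + Δ) ≤ psi d + dpsi d * Δ + 5 * Δ ^ 2 := by
  set d' := d + Δ with hd'
  set e := cl d with he
  set e' := cl d' with he'
  have m := cl_mem d
  have m' := cl_mem d'
  have eΔ : Δ = d' - d := by rw [hd']; ring
  -- the polynomial part
  have h1 : e' ^ 2 * (1 - e' - e' ^ 2) - e ^ 2 * (1 - e - e ^ 2) - gp e * (e' - e)
      ≤ 3/2 * (e' - e) ^ 2 := by
    have : e' ^ 2 * (1 - e' - e' ^ 2) - e ^ 2 * (1 - e - e ^ 2) - gp e * (e' - e)
        = (e' - e) ^ 2 * (1 - (e' + 2 * e) - (e' ^ 2 + 2 * e' * e + 3 * e ^ 2)) := by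
      simp only [gp]; ring
    rw [this, mul_comm (3/2 : ℝ)]
    refine mul_le_mul_of_nonneg_left ?_ (sq_nonneg _)
    nlinarith [sq_nonneg (e' + e), sq_nonneg e, m.1, m'.1]
  have hlip : |gp e' - gp e| ≤ 3 * |e' - e| := by
    have e1 : gp e' - gp e = (e' - e) * (2 - 3 * (e + e') - 4 * (e * e + e * e' + e' * e')) := by
      simp only [gp]; ring
    rw [e1, abs_mul]
    refine (mul_le_mul_of_nonneg_left (abs_le.2 ⟨?_, ?_⟩) (abs_nonneg _)).trans_eq
      (mul_comm _ (3 : ℝ)) <;>
      nlinarith [m.1, m.2, m'.1, m'.2]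
  -- the clamped part
  have hcl : (e' - e) ^ 2 ≤ Δ ^ 2 ∧ |e' - e| * |d' - e'| ≤ Δ ^ 2 := by
    have hee : |e' - e| ≤ |Δ| := by
      rw [eΔ, he, he', cl, cl]
      refine (abs_max_sub_max_le_max (-(1/20) : ℝ) (min (1/5) d') (-(1/20)) (min (1/5) d)).trans
        (max_le (by simp) ?_)
      exact (abs_min_sub_min_le_max (1/5 : ℝ) d' (1/5) d).trans (max_le (by simp) le_rfl)
    refine ⟨sq_le_sq.2 hee, ?_⟩
    by_cases heq : e' = e
    · simp [heq]; positivity
    have hde : |d' - e'| ≤ |Δ| := by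
      rcases le_total d' (-(1/20)) with g1 | g1
      · rw [he', cl_of_le g1, eΔ]
        have : -(1/20) ≤ d := by
          by_contra hc
          exact heq (by rw [he, he', cl_of_le g1, cl_of_le (not_le.1 hc).le])
        rw [abs_of_nonpos (by linarith), abs_of_nonpos (by linarith)]; linarith
      rcases le_total d' (1/5) with g2 | g2
      · rw [he', cl_of_mem g1 g2, sub_self, abs_zero]; positivity
      · rw [he', cl_of_ge g2, eΔ]
        have : d ≤ 1/5 := by
          by_contra hc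
          exact heq (by rw [he, he', cl_of_ge g2, cl_of_ge (not_le.1 hc).le])
        rw [abs_of_nonneg (by linarith), abs_of_nonneg (by linarith)]; linarith
    rw [← sq_abs Δ, sq]
    exact mul_le_mul hee hde (abs_nonneg _) (abs_nonneg _)
  have h2 : (gp e' - gp e) * (d' - e') ≤ 3 * (|e' - e| * |d' - e'|) := by
    refine (le_abs_self _).trans ?_
    rw [abs_mul, ← mul_assoc]
    exact mul_le_mul_of_nonneg_right hlip (abs_nonneg _)
  have key : psi d' - psi d - dpsi d * Δ = (e' ^ 2 * (1 - e' - e' ^ 2) - e ^ 2 * (1 - e - e ^ 2)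
      - gp e * (e' - e)) + (gp e' - gp e) * (d' - e') := by
    simp only [psi, dpsi, eΔ, ← he, ← he']; ring
  nlinarith [hcl.1, hcl.2, sq_nonneg Δ]

/-- The drift inequality with its slack for large `t`. -/
theorem drift_slack {x y z : ℝ} (hx0 : 0 < 1 + x) (hy0 : 0 < 1 + y) (hz0 : 0 < 1 + z) :
    hh x + hh y + hh z - (dpsi x + dpsi y + dpsi z) * (x + y + z)
      + 1/32 * max (x + y + z - 1) 0 ≤ 0 := by
  rcases le_total (x + y + z) 1 with ht | ht
  · rw [max_eq_right (by linarith)]; linarith [drift_le hx0 hy0 hz0]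
  · rw [max_eq_left (by linarith)]
    have n1 := hh_nonpos hx0
    have n2 := hh_nonpos hy0
    have n3 := hh_nonpos hz0
    have bx := dpsi_bounds x
    have by' := dpsi_bounds y
    have bz := dpsi_bounds z
    have hi : ∀ d : ℝ, 1/5 ≤ d → dpsi d = 31/125 := fun d h => by
      rw [dpsi, cl_of_ge h]; norm_num [gp]
    have hS : 1/32 ≤ dpsi x + dpsi y + dpsi z := by
      by_contra hc
      have a1 : x < 1/5 := by by_contra h; linarith [hi x (not_lt.1 h)]
      have a2 : y < 1/5 := by by_contra h; linarith [hi y (not_lt.1 h)]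
      have a3 : z < 1/5 := by by_contra h; linarith [hi z (not_lt.1 h)]
      linarith
    nlinarith [mul_le_mul_of_nonneg_right hS (by linarith : 0 ≤ x + y + z)]

end P046
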