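import Vale.Agent.P046.Count
import Vale.Agent.P046.PsiProps

/-!
P046: the drift of the Lyapunov functional `Y = Z + 2 μ²`, where `Z` is the mean of `psi` over the
nodes present and `1 + μ` is the mean normalised degree.
-/

namespace P046

open Finset

variable {α : Type} [DecidableEq α]

namespace LH

variable (L : LH α) (D N : ℝ)

/-- The expected degree when `W` is present. -/
noncomputable def uu (W : Finset α) : ℝ := D * ((W.card : ℝ) / N) ^ 2

/-- The normalised degree minus one. -/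
noncomputable def dd (W : Finset α) (a : α) : ℝ := (L.deg W a : ℝ) / uu D N W - 1

/-- The sum of `psi`. -/
noncomputable def Psum (W : Finset α) : ℝ := ∑ a ∈ W, psi (L.dd D N W a)

/-- The mean of the normalised degrees minus one. -/
noncomputable def muu (W : Finset α) : ℝ :=
  3 * ((L.tris W).card : ℝ) / ((W.card : ℝ) * uu D N W) - 1

/-- The Lyapunov functional. -/
noncomputable def Yf (W : Finset α) : ℝ :=
  L.Psum D N W / W.card + 2 * L.muu D N W ^ 2

variable {L D N}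

/-- The excess of a triangle. -/
noncomputable def mt (L : LH α) (D N : ℝ) (W t : Finset α) : ℝ :=
  max ((∑ a ∈ t, L.dd D N W a) - 1) 0

theorem uu_sdiff {W t : Finset α} (ht : t ∈ L.tris W) :
    uu D N (W \ t) = D * (((W.card : ℝ) - 3) / N) ^ 2 := by
  have := card_sdiff_tri ht
  rw [uu, show ((W \ t).card : ℝ) = (W.card : ℝ) - 3 by rw [← this]; push_cast; ring]

theorem cast_card_sdiff {W t : Finset α} (ht : t ∈ L.tris W) :
    ((W \ t).card : ℝ) = (W.card : ℝ) - 3 := by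
  rw [← card_sdiff_tri ht]; push_cast; ring

section step

variable {W : Finset α} (hu : 0 < uu D N W)
include hu

theorem deg_eq_uu (a : α) : (L.deg W a : ℝ) = uu D N W * (1 + L.dd D N W a) := by
  rw [dd]; field_simp; ring

theorem dd_gt {t : Finset α} (ht : t ∈ L.tris W) {a : α} (ha : a ∈ t) : 0 < 1 + L.dd D N W a := by
  have : (1 : ℝ) ≤ L.deg W a := by exact_mod_cast deg_pos ht ha
  rw [dd, add_sub_cancel]
  positivity

theorem dd_ge (a : α) : -1 ≤ L.dd D N W a := by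
  rw [dd, neg_le_sub_iff_le_add, le_add_iff_nonneg_left]; positivity

theorem sum_dd : ∑ a ∈ W, L.dd D N W a = (W.card : ℝ) * L.muu D N W := by
  rcases W.eq_empty_or_nonempty with rfl | hW
  · simp
  have hE : (0 : ℝ) < W.card := by exact_mod_cast Finset.card_pos.2 hW
  simp only [dd, muu, Finset.sum_sub_distrib, ← Finset.sum_div, sum_deg, Finset.sum_const,
    nsmul_eq_mul, mul_one]
  field_simp

/-- Sums over nodes weighted by the normalised degree. -/
theorem sum_weighted (φ : α → ℝ) :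
    ∑ t ∈ L.tris W, ∑ a ∈ t, φ a = uu D N W * ∑ a ∈ W, (1 + L.dd D N W a) * φ a := by
  rw [sum_tris_sum, Finset.mul_sum]
  exact Finset.sum_congr rfl fun a _ => by rw [deg_eq_uu hu]; ring

/-- The pointwise bound on the new value. -/
theorem psi_new_le {t : Finset α} (ht : t ∈ L.tris W) {f : α} (hf : f ∉ t) (hE : 3 < (W.card : ℝ))
    (θ : ℝ) (hθ : θ = ((W.card : ℝ) / (W.card - 3)) ^ 2 - 1) :
    psi (L.dd D N (W \ t) f) ≤ psi (L.dd D N W f) + dpsi (L.dd D N W f) *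
        (θ * (1 + L.dd D N W f) - (1 + θ) / uu D N W * (L.hit W t f).card)
      + 5 * (2 * θ ^ 2 * (1 + L.dd D N W f) ^ 2
        + 6 * (1 + θ) ^ 2 / uu D N W ^ 2 * (L.hit W t f).card) := by
  set k : ℝ := ((L.hit W t f).card : ℝ)
  have hk : k ≤ 3 := by simp only [k]; exact_mod_cast hit_card_le ht hf
  have hk0 : 0 ≤ k := Nat.cast_nonneg _
  have hDN : D ≠ 0 ∧ N ≠ 0 := by
    constructor <;> intro h <;> simp [uu, h] at hu
  have hd : (L.deg (W \ t) f : ℝ) = (L.deg W f : ℝ) - k := by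
    rw [← deg_sdiff W t f]; push_cast; simp only [k]; ring
  have e : L.dd D N (W \ t) f = L.dd D N W f
      + (θ * (1 + L.dd D N W f) - (1 + θ) / uu D N W * k) := by
    have h3 : (W.card : ℝ) - 3 ≠ 0 := by linarith
    have h0 : (W.card : ℝ) ≠ 0 := by linarith
    have := hDN.1; have := hDN.2
    rw [dd, dd, uu_sdiff ht, hd, hθ, uu]
    field_simp
    ring
  rw [e]
  refine (psi_taylor _ _).trans ?_
  have h1 : (θ * (1 + L.dd D N W f) - (1 + θ) / uu D N W * k) ^ 2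
      ≤ 2 * (θ * (1 + L.dd D N W f)) ^ 2 + 2 * ((1 + θ) / uu D N W * k) ^ 2 := by
    nlinarith [sq_nonneg (θ * (1 + L.dd D N W f) + (1 + θ) / uu D N W * k)]
  have h2 : ((1 + θ) / uu D N W * k) ^ 2 ≤ 3 * (1 + θ) ^ 2 / uu D N W ^ 2 * k := by
    rw [mul_pow, div_pow, mul_div_assoc, mul_comm (3 : ℝ), mul_assoc]
    exact mul_le_mul_of_nonneg_left (by nlinarith) (by positivity)
  have e2 : 6 * (1 + θ) ^ 2 / uu D N W ^ 2 * k = 2 * (3 * (1 + θ) ^ 2 / uu D N W ^ 2 * k) := by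
    ring
  rw [e2]
  linarith

theorem sum_triangle_mul (g : α → ℝ) :
    ∑ f ∈ W, g f * ∑ t ∈ (L.tris W).filter (f ∉ ·), ((L.hit W t f).card : ℝ)
      = ∑ t ∈ L.tris W, ∑ a ∈ t, g a *
          (uu D N W * ((∑ b ∈ t, L.dd D N W b) + 2 - L.dd D N W a) - 2) := by
  have e : ∀ f : α, g f * ∑ t ∈ (L.tris W).filter (f ∉ ·), ((L.hit W t f).card : ℝ)
      = ∑ s ∈ L.star W f, g f *
          (uu D N W * ((∑ b ∈ s, L.dd D N W b) + 2 - L.dd D N W f) - 2) := by
    intro f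
    rw [sum_hit, Finset.mul_sum]
    refine Finset.sum_congr rfl fun s hs => ?_
    simp only [star, Finset.mem_filter] at hs
    congr 1
    rw [Finset.sum_erase_eq_sub hs.2, Finset.sum_sub_distrib, Finset.sum_const, card_tri hs.1,
      Finset.sum_congr rfl fun b _ => deg_eq_uu (L := L) hu b, deg_eq_uu (L := L) hu f,
      ← Finset.mul_sum, Finset.sum_add_distrib, Finset.sum_const, card_tri hs.1]
    simp
    ring
  rw [Finset.sum_congr rfl fun f _ => e f, Finset.sum_comm' (t' := L.tris W) (s' := fun t => t)]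
  intro f s
  simp only [star, Finset.mem_filter]
  exact ⟨fun h => ⟨h.2.2, h.2.1⟩, fun h => ⟨(mem_tris.1 h.2).2 h.1, h.2, h.1⟩⟩

/-- The per-edge terms. -/
theorem triangle_le {t : Finset α} (ht : t ∈ L.tris W) {μ θ η : ℝ}
    (hθ : 0 ≤ θ ∧ θ ≤ 12 / uu D N W) (hη : |η| ≤ 45 / uu D N W) (hu1 : 12 ≤ uu D N W) :
    (∑ a ∈ t, -psi (L.dd D N W a)) + (2 * (1 + μ) + η) * ∑ a ∈ t, dpsi (L.dd D N W a)
      - θ * ∑ a ∈ t, dpsi (L.dd D N W a) * (1 + L.dd D N W a)
      - (1 + θ) / uu D N W * ∑ a ∈ t, dpsi (L.dd D N W a) *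
          (uu D N W * ((∑ b ∈ t, L.dd D N W b) + 2 - L.dd D N W a) - 2)
    ≤ (∑ a ∈ t, psi (L.dd D N W a) / (1 + L.dd D N W a)) - 1/32 * L.mt D N W t
      + 2 * μ * (∑ a ∈ t, dpsi (L.dd D N W a)) + 30 / uu D N W * (4 + L.mt D N W t) := by
  obtain ⟨a, b, c, hab, hac, hbc, rfl⟩ := Finset.card_eq_three.1 (card_tri ht)
  have pa := dd_gt hu ht (a := a) (by simp)
  have pb := dd_gt hu ht (a := b) (by simp)
  have pc := dd_gt hu ht (a := c) (by simp)
  simp only [mt, Finset.sum_insert, Finset.mem_insert, Finset.mem_singleton, hab, hac, hbc,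
    or_self, not_false_eq_true, Finset.sum_singleton]
  generalize L.dd D N W a = x at *
  generalize L.dd D N W b = y at *
  generalize L.dd D N W c = z at *
  generalize uu D N W = u at *
  have key := drift_slack pa pb pc
  have hh_eq : ∀ d : ℝ, 0 < 1 + d → hh d = -psi d - psi d / (1 + d) + dpsi d * d := by
    intro d hd; rw [hh]; field_simp; ring
  rw [hh_eq x pa, hh_eq y pb, hh_eq z pc] at key
  rw [show x + (y + z) = x + y + z by ring]
  set m := max (x + y + z - 1) 0 with hm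
  have m1 : x + y + z - 1 ≤ m := le_max_left _ _
  have m0 : 0 ≤ m := le_max_right _ _
  have hbd : ∀ d w : ℝ, 0 ≤ w → w ≤ 4 + m → |dpsi d * w| ≤ 1/4 * (4 + m) := fun d w h h' => by
    rw [abs_mul, abs_of_nonneg h]
    exact mul_le_mul (abs_dpsi d) h' h (by norm_num)
  have s1 := abs_le.1 (hbd x (1 + x) pa.le (by linarith))
  have s2 := abs_le.1 (hbd y (1 + y) pb.le (by linarith))
  have s3 := abs_le.1 (hbd z (1 + z) pc.le (by linarith))
  have r1 := abs_le.1 (hbd x (x + y + z + 2 - x) (by linarith) (by linarith))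
  have r2 := abs_le.1 (hbd y (x + y + z + 2 - y) (by linarith) (by linarith))
  have r3 := abs_le.1 (hbd z (x + y + z + 2 - z) (by linarith) (by linarith))
  have q1 := abs_le.1 (abs_dpsi x)
  have q2 := abs_le.1 (abs_dpsi y)
  have q3 := abs_le.1 (abs_dpsi z)
  have eu : ∀ w g : ℝ, (1 + θ) / u * (g * (u * w - 2))
      = g * w + θ * (g * w) - 2 * (1 + θ) / u * g := fun w g => by field_simp
  simp only [mul_add (((1 + θ) / u)), eu]
  have hθ1 : θ * 1 ≤ 12 / u := by linarith [hθ.2]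
  have t1 : θ * (-(dpsi x * (1 + x) + (dpsi y * (1 + y) + dpsi z * (1 + z))) -
      (dpsi x * (x + y + z + 2 - x) + (dpsi y * (x + y + z + 2 - y) +
        dpsi z * (x + y + z + 2 - z)))) ≤ 12 / u * (3/2 * (4 + m)) :=
    (mul_le_mul_of_nonneg_left (by linarith) hθ.1).trans
      (mul_le_mul_of_nonneg_right hθ.2 (by linarith))
  have t2 : η * (dpsi x + (dpsi y + dpsi z)) ≤ 45 / u * (3/4) := by
    refine (le_abs_self _).trans ?_
    rw [abs_mul]
    exact mul_le_mul hη (abs_le.2 ⟨by linarith, by linarith⟩) (abs_nonneg _) (by positivity)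
  have t3 : 2 * (1 + θ) / u * (dpsi x + (dpsi y + dpsi z)) ≤ 4 / u * (3/4) := by
    have : θ ≤ 1 := hθ.2.trans (by rw [div_le_one hu]; linarith)
    refine (mul_le_mul_of_nonneg_left (by linarith : _ ≤ (3/4 : ℝ)) (by
      have := hθ.1; positivity)).trans (mul_le_mul_of_nonneg_right ?_ (by norm_num))
    exact div_le_div_of_nonneg_right (by linarith) hu.le
  have hiu : 0 ≤ 1 / u := by positivity
  have hmu : 0 ≤ 1 / u * m := mul_nonneg hiu m0
  ring_nf at key t1 t2 t3 hiu hmu ⊢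
  linarith

omit hu in
theorem swap_sum (W : Finset α) (φ : Finset α → α → ℝ) :
    ∑ t ∈ L.tris W, ∑ f ∈ W \ t, φ t f
      = ∑ f ∈ W, ∑ t ∈ (L.tris W).filter (f ∉ ·), φ t f :=
  Finset.sum_comm' (by simp [and_comm, and_assoc])

omit hu in
theorem mt_add_nonneg (t : Finset α) : 0 ≤ 4 + L.mt D N W t := by
  have : 0 ≤ L.mt D N W t := le_max_right _ _
  linarith

omit hu in
theorem sum_three_le {t : Finset α} (ht : t ∈ L.tris W) :
    ∑ a ∈ t, (1 + L.dd D N W a) ≤ 4 + L.mt D N W t := by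
  rw [Finset.sum_add_distrib, Finset.sum_const, card_tri ht, mt]
  simp only [nsmul_eq_mul, mul_one, Nat.cast_ofNat]
  linarith [le_max_left ((∑ a ∈ t, L.dd D N W a) - 1) 0]

/-- Second-order term from the change of `u`. -/
theorem sum_sq_le {μ θ η : ℝ} (hu1 : 12 ≤ uu D N W) (hθ0 : 0 ≤ θ) (hθ12 : θ ≤ 12 / uu D N W)
    (hη : |η| ≤ 45 / uu D N W) (hμ : |μ| ≤ 1/2)
    (hTE : θ * ((L.tris W).card : ℝ) = (2 * (1 + μ) + η) * uu D N W) :
    ∑ t ∈ L.tris W, ∑ f ∈ W \ t, (1 + L.dd D N W f) ^ 2 * (2 * θ ^ 2)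
      ≤ ∑ t ∈ L.tris W, 168 / uu D N W * (4 + L.mt D N W t) := by
  calc ∑ t ∈ L.tris W, ∑ f ∈ W \ t, (1 + L.dd D N W f) ^ 2 * (2 * θ ^ 2)
      ≤ ∑ _t ∈ L.tris W, ∑ f ∈ W, (1 + L.dd D N W f) ^ 2 * (2 * θ ^ 2) :=
        Finset.sum_le_sum fun t _ => Finset.sum_le_sum_of_subset_of_nonneg Finset.sdiff_subset
          fun _ _ _ => by positivity
    _ = 2 * θ * (2 * (1 + μ) + η) * ∑ t ∈ L.tris W, ∑ a ∈ t, (1 + L.dd D N W a) := by
        rw [sum_weighted hu, ← Finset.sum_mul, Finset.sum_const, nsmul_eq_mul,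
          Finset.sum_congr rfl fun f _ => (sq (1 + L.dd D N W f)).symm]
        rw [show ∀ Q : ℝ, 2 * θ * (2 * (1 + μ) + η) * (uu D N W * Q) = 2 * θ * ((2 * (1 + μ) + η) * uu D N W) * Q
          from fun Q => by ring, ← hTE]
        ring
    _ ≤ ∑ t ∈ L.tris W, 168 / uu D N W * (4 + L.mt D N W t) := by
        rw [Finset.mul_sum]
        refine Finset.sum_le_sum fun t ht => ?_
        have h5 : 2 * (1 + μ) + η ≤ 7 := by
          have : (45:ℝ) / uu D N W ≤ 45 / 12 := div_le_div_of_nonneg_left (by norm_num) (by norm_num) hu1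
          nlinarith [(abs_le.1 hη).2, (abs_le.1 hμ).2]
        have h0 : 0 ≤ 2 * (1 + μ) + η := by
          refine nonneg_of_mul_nonneg_left ?_ hu
          rw [← hTE]; exact mul_nonneg hθ0 (Nat.cast_nonneg _)
        refine (mul_le_mul_of_nonneg_left (sum_three_le ht) (by positivity)).trans
          (mul_le_mul_of_nonneg_right ?_ (mt_add_nonneg t))
        calc 2 * θ * (2 * (1 + μ) + η) ≤ 2 * (12 / uu D N W) * 7 := by gcongr
          _ = 168 / uu D N W := by ring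

/-- Second-order term from the change of the degree. -/
theorem sum_hit_le {θ : ℝ} (hθ0 : 0 ≤ θ) (hθ1 : θ ≤ 1) :
    ∑ t ∈ L.tris W, ∑ f ∈ W \ t, 6 * (1 + θ) ^ 2 / uu D N W ^ 2 * ((L.hit W t f).card : ℝ)
      ≤ ∑ t ∈ L.tris W, 104 / uu D N W * (4 + L.mt D N W t) := by
  rw [swap_sum]
  simp only [← Finset.mul_sum]
  have := sum_triangle_mul (L := L) hu (fun _ => (1:ℝ))
  simp only [one_mul] at this
  rw [this, Finset.mul_sum, Finset.mul_sum]
  refine Finset.sum_le_sum fun t ht => ?_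
  have : ∑ a ∈ t, (uu D N W * ((∑ b ∈ t, L.dd D N W b) + 2 - L.dd D N W a) - 2)
      ≤ uu D N W * (2 * (4 + L.mt D N W t)) := by
    rw [Finset.sum_sub_distrib, ← Finset.mul_sum, Finset.sum_sub_distrib, Finset.sum_const,
      Finset.sum_const, card_tri ht]
    simp only [nsmul_eq_mul, Nat.cast_ofNat]
    have h := sum_three_le (L := L) (D := D) (N := N) ht
    rw [Finset.sum_add_distrib, Finset.sum_const, card_tri ht] at h
    simp only [nsmul_eq_mul, mul_one, Nat.cast_ofNat] at h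
    nlinarith
  refine (mul_le_mul_of_nonneg_left this (by positivity)).trans ?_
  calc 6 * (1 + θ) ^ 2 / uu D N W ^ 2 * (uu D N W * (2 * (4 + L.mt D N W t)))
      = 12 * (1 + θ) ^ 2 / uu D N W * (4 + L.mt D N W t) := by field_simp; ring
    _ ≤ 104 / uu D N W * (4 + L.mt D N W t) := by
        refine mul_le_mul_of_nonneg_right (div_le_div_of_nonneg_right ?_ hu.le) (mt_add_nonneg t)
        nlinarith

/-- The first-order term in the mean. -/
theorem sum_slope_le :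
    2 * L.muu D N W * ∑ t ∈ L.tris W, (∑ a ∈ t, dpsi (L.dd D N W a)) ≤ 4 * L.muu D N W ^ 2 * uu D N W * (W.card : ℝ) + 320 * |L.muu D N W| * uu D N W * L.Psum D N W := by
  have h1 : |∑ a ∈ W, (1 + L.dd D N W a) * dpsi (L.dd D N W a) - 2 * ((W.card : ℝ) * L.muu D N W)|
      ≤ 160 * L.Psum D N W := by
    rw [← sum_dd hu, Finset.mul_sum, ← Finset.sum_sub_distrib, Psum, Finset.mul_sum]
    refine (Finset.abs_sum_le_sum_abs _ _).trans (Finset.sum_le_sum fun a _ => ?_)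
    rw [mul_comm]; exact dpsi_lin _
  rw [sum_weighted hu]
  have := le_abs_self (L.muu D N W * (∑ a ∈ W, (1 + L.dd D N W a) * dpsi (L.dd D N W a) - 2 * ((W.card : ℝ) * L.muu D N W)))
  rw [abs_mul] at this
  nlinarith [mul_le_mul_of_nonneg_left h1 (abs_nonneg (L.muu D N W))]

/-- The whole step, summed over the triangles. -/
theorem sum_psum_le (hu1 : 12 ≤ uu D N W) (huE : uu D N W ≤ W.card)
    (hμ : |L.muu D N W| ≤ 1/2) :
    ∑ t ∈ L.tris W, L.Psum D N (W \ t) ≤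
      (L.tris W).card * L.Psum D N W + uu D N W * L.Psum D N W
        + 4 * L.muu D N W ^ 2 * uu D N W * W.card
        + 320 * |L.muu D N W| * uu D N W * L.Psum D N W
        + ∑ t ∈ L.tris W, (1390 / uu D N W * (4 + L.mt D N W t) - 1/32 * L.mt D N W t) := by
  set u := uu D N W with hu_def
  set E : ℝ := (W.card : ℝ) with hE_def
  set T : ℝ := ((L.tris W).card : ℝ) with hT_def
  set μ := L.muu D N W with hμ_def
  set θ : ℝ := (E / (E - 3)) ^ 2 - 1 with hθ_def
  have hE : 12 ≤ E := hu1.trans huE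
  have hθ0 : 0 ≤ θ := by
    rw [hθ_def, sub_nonneg, one_le_sq_iff₀ (by positivity [show (0:ℝ) < E - 3 by linarith]),
      one_le_div (by linarith)]
    linarith
  have hθ6 : |θ - 6 / E| ≤ 60 / E ^ 2 := by
    have e : θ - 6 / E = (27 * E - 54) / (E * (E - 3) ^ 2) := by
      have : E - 3 ≠ 0 := by linarith
      rw [hθ_def]; field_simp; ring
    rw [e, abs_of_nonneg (div_nonneg (by linarith) (by positivity)),
      div_le_div_iff₀ (by nlinarith) (by positivity)]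
    nlinarith
  have hθ12 : θ ≤ 12 / u := by
    have h1 : θ ≤ 6 / E + 60 / E ^ 2 := by linarith [(abs_le.1 hθ6).2]
    have h2 : 60 / E ^ 2 ≤ 6 / E := by
      rw [div_le_div_iff₀ (by positivity) (by linarith)]; nlinarith
    have h3 : 6 / E ≤ 6 / u := div_le_div_of_nonneg_left (by norm_num) hu huE
    linarith [(by ring : (12:ℝ) / u = 6 / u + 6 / u)]
  have hθ1 : θ ≤ 1 := hθ12.trans (by rw [div_le_one hu]; linarith)
  set η : ℝ := (θ - 6 / E) * E * (1 + μ) / 3 with hη_def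
  have hη : |η| ≤ 45 / u := by
    rw [hη_def, abs_div, abs_mul, abs_mul, abs_of_pos (by linarith : 0 < E),
      abs_of_pos (by norm_num : (0:ℝ) < 3), abs_of_nonneg (by linarith [(abs_le.1 hμ).1] : 0 ≤ 1 + μ)]
    calc |θ - 6 / E| * E * (1 + μ) / 3 ≤ 60 / E ^ 2 * E * (3/2) / 3 := by
          have := (abs_le.1 hμ).2
          refine div_le_div_of_nonneg_right ?_ (by norm_num)
          exact mul_le_mul (mul_le_mul_of_nonneg_right hθ6 (by linarith)) (by linarith)
            (by linarith [(abs_le.1 hμ).1]) (by positivity)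
      _ = 30 / E := by field_simp; ring
      _ ≤ 30 / u := div_le_div_of_nonneg_left (by norm_num) hu huE
      _ ≤ 45 / u := div_le_div_of_nonneg_right (by norm_num) hu.le
  have hTE : θ * T = (2 * (1 + μ) + η) * u := by
    rw [hη_def, hμ_def, muu, ← hE_def, ← hu_def, ← hT_def]
    field_simp
    ring
  set S : Finset α → ℝ := fun t => ∑ a ∈ t, dpsi (L.dd D N W a) with hS
  -- pointwise bound
  have step : ∑ t ∈ L.tris W, L.Psum D N (W \ t) ≤ ∑ t ∈ L.tris W, ∑ f ∈ W \ t,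
      (psi (L.dd D N W f) + dpsi (L.dd D N W f) *
        (θ * (1 + L.dd D N W f) - (1 + θ) / u * (L.hit W t f).card)
      + 5 * (2 * θ ^ 2 * (1 + L.dd D N W f) ^ 2
        + 6 * (1 + θ) ^ 2 / u ^ 2 * (L.hit W t f).card)) := by
    refine Finset.sum_le_sum fun t ht => Finset.sum_le_sum fun f hf => ?_
    exact psi_new_le hu ht (Finset.mem_sdiff.1 hf).2 (by linarith) θ rfl
  refine step.trans ?_
  have p1 : ∑ t ∈ L.tris W, ∑ f ∈ W \ t, psi (L.dd D N W f)
      = T * L.Psum D N W + ∑ t ∈ L.tris W, ∑ a ∈ t, -psi (L.dd D N W a) := by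
    rw [Psum, hT_def, ← nsmul_eq_mul, ← Finset.sum_const, ← Finset.sum_add_distrib]
    refine Finset.sum_congr rfl fun t ht => ?_
    rw [Finset.sum_neg_distrib, ← sub_eq_add_neg, Finset.sum_sdiff_eq_sub (mem_tris.1 ht).2]
  have p2 : ∑ t ∈ L.tris W, ∑ f ∈ W \ t, dpsi (L.dd D N W f) * (θ * (1 + L.dd D N W f))
      = ∑ t ∈ L.tris W, ((2 * (1 + μ) + η) * S t
        - θ * ∑ a ∈ t, dpsi (L.dd D N W a) * (1 + L.dd D N W a)) := by
    have e1 : T * ∑ f ∈ W, dpsi (L.dd D N W f) * (θ * (1 + L.dd D N W f))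
        = (2 * (1 + μ) + η) * ∑ t ∈ L.tris W, S t := by
      rw [hS, sum_weighted hu, ← mul_assoc, ← hTE, Finset.mul_sum, Finset.mul_sum]
      exact Finset.sum_congr rfl fun f _ => by ring
    have e2 : ∑ t ∈ L.tris W, ∑ a ∈ t, dpsi (L.dd D N W a) * (θ * (1 + L.dd D N W a))
        = θ * ∑ t ∈ L.tris W, ∑ a ∈ t, dpsi (L.dd D N W a) * (1 + L.dd D N W a) := by
      simp only [Finset.mul_sum]
      exact Finset.sum_congr rfl fun t _ => Finset.sum_congr rfl fun a _ => by ring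
    rw [Finset.sum_congr rfl fun t ht => Finset.sum_sdiff_eq_sub (mem_tris.1 ht).2,
      Finset.sum_sub_distrib, Finset.sum_sub_distrib, Finset.sum_const, nsmul_eq_mul, ← hT_def,
      e1, e2, ← Finset.mul_sum, ← Finset.mul_sum]
  have p3 : ∑ t ∈ L.tris W, ∑ f ∈ W \ t,
      dpsi (L.dd D N W f) * ((1 + θ) / u * (L.hit W t f).card)
      = ∑ t ∈ L.tris W, (1 + θ) / u * ∑ a ∈ t, dpsi (L.dd D N W a) *
          (u * ((∑ b ∈ t, L.dd D N W b) + 2 - L.dd D N W a) - 2) := by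
    rw [swap_sum, ← Finset.mul_sum, ← sum_triangle_mul hu, Finset.mul_sum]
    refine Finset.sum_congr rfl fun f _ => ?_
    rw [Finset.mul_sum, Finset.mul_sum]
    exact Finset.sum_congr rfl fun t _ => by ring
  have p4 := sum_sq_le hu hu1 hθ0 hθ12 hη hμ hTE
  have p5 := sum_hit_le (L := L) hu hθ0 hθ1
  have p6 := Finset.sum_le_sum fun t ht =>
    triangle_le (L := L) hu ht (μ := μ) ⟨hθ0, hθ12⟩ hη hu1
  have p7 : ∑ t ∈ L.tris W, ∑ a ∈ t, psi (L.dd D N W a) / (1 + L.dd D N W a)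
      ≤ u * L.Psum D N W := by
    rw [sum_weighted hu, Psum]
    refine mul_le_mul_of_nonneg_left (Finset.sum_le_sum fun a _ => ?_) hu.le
    rcases eq_or_ne (1 + L.dd D N W a) 0 with h | h
    · rw [h, zero_mul]; exact psi_nonneg _
    · rw [mul_div_cancel₀ _ h]
  have p8 := sum_slope_le (L := L) hu
  have eA : ∑ t ∈ L.tris W, ∑ f ∈ W \ t, (psi (L.dd D N W f) + dpsi (L.dd D N W f) *
        (θ * (1 + L.dd D N W f) - (1 + θ) / u * (L.hit W t f).card)
      + 5 * (2 * θ ^ 2 * (1 + L.dd D N W f) ^ 2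
        + 6 * (1 + θ) ^ 2 / u ^ 2 * (L.hit W t f).card))
      = (∑ t ∈ L.tris W, ∑ f ∈ W \ t, psi (L.dd D N W f))
      + (∑ t ∈ L.tris W, ∑ f ∈ W \ t, dpsi (L.dd D N W f) * (θ * (1 + L.dd D N W f)))
      - (∑ t ∈ L.tris W, ∑ f ∈ W \ t,
          dpsi (L.dd D N W f) * ((1 + θ) / u * (L.hit W t f).card))
      + 5 * (∑ t ∈ L.tris W, ∑ f ∈ W \ t, (1 + L.dd D N W f) ^ 2 * (2 * θ ^ 2))
      + 5 * (∑ t ∈ L.tris W, ∑ f ∈ W \ t,
          6 * (1 + θ) ^ 2 / u ^ 2 * ((L.hit W t f).card : ℝ)) := by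
    simp only [Finset.mul_sum, ← Finset.sum_add_distrib, ← Finset.sum_sub_distrib]
    exact Finset.sum_congr rfl fun t _ => Finset.sum_congr rfl fun f _ => by ring
  rw [eA, p1, p2, p3]
  have eC : ∀ t, (1390 : ℝ) / u * (4 + L.mt D N W t) - 1/32 * L.mt D N W t
      = 30 / u * (4 + L.mt D N W t) + 5 * (168 / u * (4 + L.mt D N W t))
        + 5 * (104 / u * (4 + L.mt D N W t)) - 1/32 * L.mt D N W t := fun t => by ring
  simp only [eC, hS, Finset.sum_add_distrib, Finset.sum_sub_distrib, ← Finset.mul_sum] at p6 ⊢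
  simp only [Finset.sum_add_distrib, ← Finset.mul_sum, ← hμ_def, ← hE_def] at p4 p5 p8
  rw [← hu_def] at *
  linarith

omit hu in
/-- The change of `μ` in one step. -/
theorem muu_sdiff {t : Finset α} (ht : t ∈ L.tris W) (hu : 0 < uu D N W)
    (hE : 3 < (W.card : ℝ)) :
    L.muu D N (W \ t) = L.muu D N W
      + ((((W.card : ℝ) / (W.card - 3)) ^ 3 - 1) * (1 + L.muu D N W)
        + 6 * ((W.card : ℝ) / (W.card - 3)) ^ 3 / (W.card * uu D N W)
        - 3 * ((W.card : ℝ) / (W.card - 3)) ^ 3 / W.card * ∑ a ∈ t, (1 + L.dd D N W a)) := by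
  have hT : ((L.tris (W \ t)).card : ℝ)
      = (L.tris W).card + 2 - uu D N W * ∑ a ∈ t, (1 + L.dd D N W a) := by
    rw [Finset.mul_sum, ← Finset.sum_congr rfl fun a _ => deg_eq_uu (L := L) hu a,
      ← card_tris_sdiff ht]
    ring
  have hDN : D ≠ 0 ∧ N ≠ 0 := by
    constructor <;> intro h <;> simp [uu, h] at hu
  have h3 : (W.card : ℝ) - 3 ≠ 0 := by linarith
  have h0 : (W.card : ℝ) ≠ 0 := by linarith
  have := hDN.1; have := hDN.2
  rw [muu, muu, hT, cast_card_sdiff ht, uu_sdiff ht, uu]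
  generalize ∑ a ∈ t, (1 + L.dd D N W a) = S
  field_simp
  ring

/-- The squared normalised degrees are controlled by `psi` and the large triangles. -/
theorem sum_sq_dd_le :
    uu D N W * ∑ a ∈ W, L.dd D N W a ^ 2
      ≤ 60 * (uu D N W * L.Psum D N W) + 3 * ∑ t ∈ L.tris W, L.mt D N W t := by
  have h1 : ∑ a ∈ W, L.dd D N W a ^ 2
      ≤ 60 * L.Psum D N W + ∑ a ∈ W, (1 + L.dd D N W a) * max (L.dd D N W a - 3) 0 := by
    rw [Psum, Finset.mul_sum, ← Finset.sum_add_distrib]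
    exact Finset.sum_le_sum fun a _ => sq_le_psi (dd_ge hu a)
  have h2 : uu D N W * ∑ a ∈ W, (1 + L.dd D N W a) * max (L.dd D N W a - 3) 0
      ≤ 3 * ∑ t ∈ L.tris W, L.mt D N W t := by
    rw [← sum_weighted hu, Finset.mul_sum]
    refine Finset.sum_le_sum fun t ht => ?_
    have : ∀ a ∈ t, max (L.dd D N W a - 3) 0 ≤ L.mt D N W t := by
      intro a ha
      refine max_le_max ?_ le_rfl
      have h2 : ∑ b ∈ t.erase a, (-1 : ℝ) ≤ ∑ b ∈ t.erase a, L.dd D N W b :=
        Finset.sum_le_sum fun b _ => dd_ge hu b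
      rw [Finset.sum_const, Finset.card_erase_of_mem ha, card_tri ht,
        Finset.sum_erase_eq_sub ha] at h2
      norm_num at h2
      linarith
    refine (Finset.sum_le_sum this).trans_eq ?_
    rw [Finset.sum_const, card_tri ht]
    norm_num
  nlinarith [mul_le_mul_of_nonneg_left h1 hu.le]

omit hu in
theorem cube_bounds {E : ℝ} (h : 12 ≤ E) :
    0 ≤ (E / (E - 3)) ^ 3 - 1 ∧ (E / (E - 3)) ^ 3 - 1 ≤ 22 / E ∧ (E / (E - 3)) ^ 3 ≤ 3 ∧
      |((E / (E - 3)) ^ 3 - 1) * E / 3 - 3 * (E / (E - 3)) ^ 3| ≤ 27 / E := by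
  have h3 : 0 < E - 3 := by linarith
  have hp : 27/64 * E ^ 3 ≤ (E - 3) ^ 3 := by
    calc 27/64 * E ^ 3 = (3/4 * E) ^ 3 := by ring
      _ ≤ (E - 3) ^ 3 := pow_le_pow_left₀ (by linarith) (by linarith) 3
  have e : (E / (E - 3)) ^ 3 - 1 = (9 * E ^ 2 - 27 * E + 27) / (E - 3) ^ 3 := by
    field_simp; ring
  have e' : ((E / (E - 3)) ^ 3 - 1) * E / 3 - 3 * (E / (E - 3)) ^ 3
      = -((9 * E ^ 2 - 9 * E) / (E - 3) ^ 3) := by
    field_simp; ring
  refine ⟨?_, ?_, ?_, ?_⟩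
  · rw [e]; exact div_nonneg (by nlinarith) (by positivity)
  · rw [e, div_le_div_iff₀ (by positivity) (by linarith)]; nlinarith
  · have : E / (E - 3) ≤ 4/3 := by rw [div_le_iff₀ h3]; linarith
    calc (E / (E - 3)) ^ 3 ≤ (4/3) ^ 3 := pow_le_pow_left₀ (by positivity) this 3
      _ ≤ 3 := by norm_num
  · rw [e', abs_neg, abs_of_nonneg (div_nonneg (by nlinarith) (by positivity)),
      div_le_div_iff₀ (by positivity) (by linarith)]
    nlinarith

omit hu in
/-- The total first change of `μ`. -/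
theorem total_change_le {E u μ V P M T G : ℝ} (hu : 0 < u) (hE : 12 ≤ E) (huE : u ≤ E)
    (hμ : |μ| ≤ 1/2) (hV0 : 0 ≤ V) (hV : u * V ≤ 60 * (u * P) + 3 * M)
    (hG : G = (E / (E - 3)) ^ 3) (hT : T = E * u * (1 + μ) / 3) :
    |T * ((G - 1) * (1 + μ) + 6 * G / (E * u)) - 3 * G / E * (u * (E + 2 * (E * μ) + V))|
      ≤ 70 + 9 * u * μ ^ 2 + 540 * (u * P) / E + 27 * M / E := by
  obtain ⟨hG1, -, hG3, hδ⟩ := cube_bounds hE
  rw [← hG] at hG1 hG3 hδ
  have e : T * ((G - 1) * (1 + μ) + 6 * G / (E * u)) - 3 * G / E * (u * (E + 2 * (E * μ) + V))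
      = u * (1 + μ) ^ 2 * ((G - 1) * E / 3 - 3 * G) + 3 * G * u * (μ ^ 2 - V / E)
        + 2 * G * (1 + μ) := by
    rw [hT]; field_simp; ring
  rw [e]
  have hμ' := abs_le.1 hμ
  have hμ2 : (1 + μ) ^ 2 ≤ 9/4 := by nlinarith
  have a1 : |u * (1 + μ) ^ 2 * ((G - 1) * E / 3 - 3 * G)| ≤ 61 := by
    rw [abs_mul, abs_of_nonneg (by positivity)]
    calc u * (1 + μ) ^ 2 * |(G - 1) * E / 3 - 3 * G| ≤ u * (9/4) * (27 / E) :=
          mul_le_mul (mul_le_mul_of_nonneg_left hμ2 hu.le) hδ (abs_nonneg _) (by positivity)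
      _ = 243/4 * (u / E) := by ring
      _ ≤ 243/4 * 1 := mul_le_mul_of_nonneg_left ((div_le_one (by linarith)).2 huE) (by norm_num)
      _ ≤ 61 := by norm_num
  have a2 : |3 * G * u * (μ ^ 2 - V / E)| ≤ 9 * (u * μ ^ 2 + u * V / E) := by
    have hG0 : 0 < G := by linarith
    rw [abs_mul, abs_of_pos (by positivity)]
    calc 3 * G * u * |μ ^ 2 - V / E| ≤ 3 * 3 * u * (μ ^ 2 + V / E) := by
          refine mul_le_mul (by gcongr) ?_ (abs_nonneg _) (by positivity)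
          have : 0 ≤ V / E := by positivity
          exact abs_le.2 ⟨by linarith [sq_nonneg μ], by linarith [sq_nonneg μ]⟩
      _ = _ := by ring
  have a3 : |2 * G * (1 + μ)| ≤ 9 := by
    rw [abs_of_nonneg (mul_nonneg (by linarith) (by linarith))]
    nlinarith
  have a4 : u * V / E ≤ (60 * (u * P) + 3 * M) / E := div_le_div_of_nonneg_right hV (by linarith)
  refine (abs_add_three _ _ _).trans ?_
  ring_nf at a1 a2 a3 a4 ⊢
  linarith

omit hu in
/-- The square of the change of `μ` in one step. -/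
theorem change_sq_le {E u μ S m G : ℝ} (hu : 12 ≤ u) (huE : u ≤ E) (hμ : |μ| ≤ 1/2)
    (hS0 : 0 ≤ S) (hS1 : S ≤ 3/2 * E / u) (hS2 : S ≤ 4 + m) (hm : 0 ≤ m)
    (hG : G = (E / (E - 3)) ^ 3) :
    ((G - 1) * (1 + μ) + 6 * G / (E * u) - 3 * G / E * S) ^ 2 ≤ 3000 / (u * E) * (4 + m) := by
  obtain ⟨hG1, hG2, hG3, -⟩ := cube_bounds (hu.trans huE)
  rw [← hG] at hG1 hG2 hG3
  have hμ' := abs_le.1 hμ
  have hu0 : 0 < u := by linarith
  have hE0 : 0 < E := by linarith
  have hG0 : 0 < G := by linarith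
  set A := (G - 1) * (1 + μ) + 6 * G / (E * u) with hA
  have hA0 : 0 ≤ A := add_nonneg (mul_nonneg hG1 (by linarith)) (by positivity)
  have hA1 : A ≤ 36 / E := by
    calc A ≤ 22 / E * (3/2) + 6 * 3 / (E * 12) := by
          refine add_le_add (mul_le_mul hG2 (by linarith) (by linarith) (by positivity)) ?_
          gcongr
      _ = 69 / 2 / E := by ring
      _ ≤ 36 / E := div_le_div_of_nonneg_right (by norm_num) hE0.le
  have hB0 : 0 ≤ 3 * G / E * S := by positivity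
  have hB1 : 3 * G / E * S ≤ 9 / E * S :=
    mul_le_mul_of_nonneg_right (div_le_div_of_nonneg_right (by linarith) hE0.le) hS0
  have h1 : A ^ 2 ≤ 1296 / 4 / (u * E) * (4 + m) := by
    calc A ^ 2 ≤ (36 / E) ^ 2 := pow_le_pow_left₀ hA0 hA1 2
      _ = 1296 / (E * E) := by ring
      _ ≤ 1296 / (u * E) := by gcongr
      _ = 1296 / 4 / (u * E) * 4 := by ring
      _ ≤ _ := mul_le_mul_of_nonneg_left (by linarith) (by positivity)
  have h2 : (3 * G / E * S) ^ 2 ≤ 243 / 2 / (u * E) * (4 + m) := by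
    calc (3 * G / E * S) ^ 2 ≤ (9 / E * S) ^ 2 := pow_le_pow_left₀ hB0 hB1 2
      _ = 81 / E ^ 2 * (S * S) := by ring
      _ ≤ 81 / E ^ 2 * ((3/2 * E / u) * (4 + m)) :=
          mul_le_mul_of_nonneg_left (mul_le_mul hS1 hS2 hS0 (by positivity)) (by positivity)
      _ = _ := by field_simp; ring
  have h5 : 0 ≤ 1 / (u * E) * (4 + m) := mul_nonneg (by positivity) (by linarith)
  have h6 : (A - 3 * G / E * S) ^ 2 ≤ A ^ 2 + (3 * G / E * S) ^ 2 := by
    nlinarith [mul_nonneg hA0 hB0]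
  ring_nf at h1 h2 h5 h6 ⊢
  linarith

/-- A normalised degree sum is at most `3E/(2u)`. -/
theorem sum_three_le' {t : Finset α} (ht : t ∈ L.tris W) :
    ∑ a ∈ t, (1 + L.dd D N W a) ≤ 3/2 * (W.card : ℝ) / uu D N W := by
  rw [le_div_iff₀ hu, Finset.sum_mul,
    Finset.sum_congr rfl fun a _ => by rw [mul_comm, ← deg_eq_uu hu a]]
  calc ∑ a ∈ t, (L.deg W a : ℝ) ≤ ∑ _a ∈ t, (W.card : ℝ) / 2 := Finset.sum_le_sum fun a ha => by
        have := two_deg_le (L := L) ((mem_tris.1 ht).2 ha)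
        rw [le_div_iff₀ (by norm_num)]
        exact_mod_cast (by omega : L.deg W a * 2 ≤ W.card)
    _ = 3/2 * (W.card : ℝ) := by rw [Finset.sum_const, card_tri ht]; ring

/-- The step of `μ ^ 2`, summed over the triangles. -/
theorem sum_muu_sq_le (hu1 : 12 ≤ uu D N W) (huE : uu D N W ≤ W.card)
    (hμ : |L.muu D N W| ≤ 1/2) :
    ∑ t ∈ L.tris W, L.muu D N (W \ t) ^ 2 ≤
      (L.tris W).card * L.muu D N W ^ 2
        + |L.muu D N W| * (140 + 18 * uu D N W * L.muu D N W ^ 2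
          + 1080 * (uu D N W * L.Psum D N W) / W.card
          + 54 * (∑ t ∈ L.tris W, L.mt D N W t) / W.card)
        + 3000 / (uu D N W * W.card) * ∑ t ∈ L.tris W, (4 + L.mt D N W t) := by
  have hE12 : 12 ≤ (W.card : ℝ) := hu1.trans huE
  have hT3 : ((L.tris W).card : ℝ) = W.card * uu D N W * (1 + L.muu D N W) / 3 := by
    rw [muu]; field_simp; ring
  have hsq : ∑ a ∈ W, (1 + L.dd D N W a) * (1 + L.dd D N W a)
      = (W.card : ℝ) + 2 * ((W.card : ℝ) * L.muu D N W) + ∑ a ∈ W, L.dd D N W a ^ 2 := by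
    rw [← sum_dd hu, Finset.card_eq_sum_ones, Nat.cast_sum, Finset.mul_sum,
      ← Finset.sum_add_distrib, ← Finset.sum_add_distrib]
    exact Finset.sum_congr rfl fun a _ => by push_cast; ring
  have b1 := total_change_le hu hE12 huE hμ (Finset.sum_nonneg fun a _ => sq_nonneg _)
    (sum_sq_dd_le (L := L) hu) rfl hT3
  rw [← hsq, ← sum_weighted hu] at b1
  have b2 := fun t (ht : t ∈ L.tris W) => change_sq_le hu1 huE hμ
    (Finset.sum_nonneg fun a _ => by linarith [dd_ge (L := L) hu a]) (sum_three_le' hu ht)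
    (sum_three_le (L := L) (D := D) (N := N) ht) (le_max_right _ _) rfl
  rw [Finset.sum_congr rfl fun t ht => by rw [muu_sdiff ht hu (by linarith)]]
  generalize L.muu D N W = μ at *
  generalize hA : ((W.card : ℝ) / (W.card - 3)) ^ 3 = G at *
  generalize ((G - 1) * (1 + μ) + 6 * G / (W.card * uu D N W)) = A at *
  generalize 3 * G / (W.card : ℝ) = B at *
  set S : Finset α → ℝ := fun t => ∑ a ∈ t, (1 + L.dd D N W a)
  rw [Finset.sum_congr rfl fun t _ => show (μ + (A - B * S t)) ^ 2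
    = μ ^ 2 + 2 * μ * (A - B * S t) + (A - B * S t) ^ 2 by ring, Finset.sum_add_distrib,
    Finset.sum_add_distrib, Finset.sum_const, nsmul_eq_mul, ← Finset.mul_sum,
    Finset.sum_sub_distrib, Finset.sum_const, nsmul_eq_mul, ← Finset.mul_sum]
  have b4 := Finset.sum_le_sum b2
  rw [← Finset.mul_sum] at b4
  have b3 := (le_abs_self (2 * μ * (((L.tris W).card : ℝ) * A - B * ∑ t ∈ L.tris W, S t))).trans_eq
    (by rw [abs_mul, abs_mul, abs_two])
  have b5 := mul_le_mul_of_nonneg_left b1 (by positivity : 0 ≤ 2 * |μ|)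
  simp only [S] at b3 b4 b5 ⊢
  ring_nf at b3 b4 b5 ⊢
  linarith

omit hu in
/-- The arithmetic of the drift of `Y`. -/
theorem combine {u E μ T M P Y S1 S2 : ℝ} (hu : 1000000 ≤ u) (huE : u ≤ E) (hP : 0 ≤ P)
    (hM : 0 ≤ M) (hμ : |μ| ≤ 1/10000) (hμs : |μ| ≤ Real.sqrt Y)
    (eT : T = E * u * (1 + μ) / 3) (eY : Y * E = P + 2 * μ ^ 2 * E)
    (k1 : S1 ≤ T * P + u * P + 4 * μ ^ 2 * u * E + 320 * |μ| * u * P
      + (1390 / u * (T * 4 + M) - 1/32 * M))
    (k2 : S2 ≤ T * μ ^ 2 + |μ| * (140 + 18 * u * μ ^ 2 + 1080 * (u * P) / E + 54 * M / E)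
      + 3000 / (u * E) * (T * 4 + M)) :
    S1 + 2 * S2 * (E - 3)
      ≤ T * (E - 3) * Y + T * (6 * Y + 16000 * Real.sqrt Y * Y + 31000 / u) := by
  have hu0 : 0 < u := by linarith
  have hE0 : 0 < E := by linarith
  have hE' : 0 < E - 3 := by linarith
  have hμ' := abs_le.1 hμ
  have hT0 : 0 ≤ T := by
    rw [eT]; exact div_nonneg (mul_nonneg (by positivity) (by linarith)) (by norm_num)
  have hm2 : 2 * S2 * (E - 3)
      ≤ 2 * T * μ ^ 2 * (E - 3)
        + (|μ| * (280 * E + 36 * u * μ ^ 2 * E + 2160 * (u * P) + 108 * M)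
          + 6000 / u * (T * 4 + M)) := by
    calc 2 * S2 * (E - 3)
        ≤ 2 * (T * μ ^ 2 + |μ| * (140 + 18 * u * μ ^ 2 + 1080 * (u * P) / E + 54 * M / E)
          + 3000 / (u * E) * (T * 4 + M)) * (E - 3) :=
          mul_le_mul_of_nonneg_right (by linarith) hE'.le
      _ = 2 * T * μ ^ 2 * (E - 3)
          + (E - 3) / E * (|μ| * (280 * E + 36 * u * μ ^ 2 * E + 2160 * (u * P) + 108 * M)
            + 6000 / u * (T * 4 + M)) := by field_simp; ring
      _ ≤ _ := by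
          refine add_le_add le_rfl (mul_le_of_le_one_left (by positivity) ?_)
          rw [div_le_one hE0]; linarith
  have hY0 : 0 ≤ Y * E := by rw [eY]; positivity
  have hS : 0 ≤ Real.sqrt Y := Real.sqrt_nonneg _
  have h2 : u * (Y * E) ≤ 6 * (T * Y) := by
    have := mul_nonneg (mul_nonneg hu0.le hY0) (by linarith : 0 ≤ 1 + 2 * μ)
    rw [eT]; linarith
  have hTY : 0 ≤ T * Y := by
    have := mul_nonneg hu0.le hY0
    linarith
  have a0 : -(μ * (u * (Y * E))) ≤ Real.sqrt Y * (6 * (T * Y)) := by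
    calc -(μ * (u * (Y * E))) ≤ |μ| * (u * (Y * E)) := by
          rw [← neg_mul]
          exact mul_le_mul_of_nonneg_right (neg_le_abs μ) (mul_nonneg hu0.le hY0)
      _ ≤ _ := mul_le_mul hμs h2 (mul_nonneg hu0.le hY0) hS
  have a1 : |μ| * (u * P) ≤ Real.sqrt Y * (6 * (T * Y)) := by
    refine mul_le_mul hμs ?_ (mul_nonneg hu0.le hP) hS
    have : 0 ≤ μ ^ 2 * (u * E) := by positivity
    have : u * (Y * E) = u * P + 2 * (μ ^ 2 * (u * E)) := by rw [eY]; ring
    linarith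
  have a2 : |μ| * (μ ^ 2 * (u * E)) ≤ Real.sqrt Y * (3 * (T * Y)) := by
    refine mul_le_mul hμs ?_ (by positivity) hS
    have : u * (Y * E) = u * P + 2 * (μ ^ 2 * (u * E)) := by rw [eY]; ring
    nlinarith [mul_nonneg hu0.le hP]
  have a3 : μ * (u * P) ≤ |μ| * (u * P) :=
    mul_le_mul_of_nonneg_right (le_abs_self μ) (mul_nonneg hu0.le hP)
  have a4 : |μ| * E ≤ T / u := by
    rw [le_div_iff₀ hu0, eT]
    have := mul_nonneg (mul_nonneg hE0.le hu0.le) (by linarith : 0 ≤ (1 + μ) / 3 - |μ|)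
    linarith
  have a5 : (7390 / u + 108 * |μ| - 1/32) * M ≤ 0 := by
    refine mul_nonpos_of_nonpos_of_nonneg ?_ hM
    have : 7390 / u ≤ 7390 / 1000000 := div_le_div_of_nonneg_left (by norm_num) (by norm_num) hu
    linarith
  have a6 : T * (E - 3) * Y = T * P + 2 * T * μ ^ 2 * (E - 3) - u * P * (1 + μ) := by
    have h3 : T * (Y * E) = T * P + 2 * T * μ ^ 2 * E := by rw [eY]; ring
    have h4 : 3 * (T * (Y - 2 * μ ^ 2)) = u * (1 + μ) * (Y * E - 2 * μ ^ 2 * E) := by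
      rw [eT]; ring
    rw [eY] at h4
    linarith
  have a7 : 2 * (u * (Y * E)) = 6 * (T * Y) - 2 * (μ * (u * (Y * E))) := by rw [eT]; ring
  have a8 : u * (Y * E) = u * P + 2 * (μ ^ 2 * (u * E)) := by rw [eY]; ring
  have a9 : 0 ≤ Real.sqrt Y * (T * Y) := mul_nonneg hS hTY
  have a10 : 0 ≤ T / u := div_nonneg hT0 hu0.le
  ring_nf at k1 hm2 a0 a1 a2 a3 a4 a5 a6 a7 a8 a9 a10 ⊢
  linarith

/-- The drift of `Y`. -/
theorem sum_Yf_le (hu6 : 1000000 ≤ uu D N W) (huE : uu D N W ≤ W.card)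
    (hY : L.Yf D N W ≤ 1 / 100000000) :
    ∑ t ∈ L.tris W, L.Yf D N (W \ t) ≤ ((L.tris W).card : ℝ) * (L.Yf D N W
      + (6 * L.Yf D N W + 16000 * Real.sqrt (L.Yf D N W) * L.Yf D N W + 31000 / uu D N W)
        / ((W.card : ℝ) - 3)) := by
  have hu1 : (12 : ℝ) ≤ uu D N W := by linarith
  have hE12 : 12 ≤ (W.card : ℝ) := hu1.trans huE
  have hP0 : 0 ≤ L.Psum D N W := Finset.sum_nonneg fun a _ => psi_nonneg _
  have hM0 : ∀ t, 0 ≤ L.mt D N W t := fun t => le_max_right _ _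
  have hY2 : L.muu D N W ^ 2 ≤ L.Yf D N W / 2 := by
    have : 0 ≤ L.Psum D N W / W.card := by positivity
    rw [Yf]; linarith
  have hY0 : 0 ≤ L.Yf D N W := by nlinarith
  have hμs : |L.muu D N W| ≤ Real.sqrt (L.Yf D N W) :=
    Real.le_sqrt_of_sq_le (by rw [sq_abs]; linarith [sq_nonneg (L.muu D N W)])
  have hμ4 : |L.muu D N W| ≤ 1/10000 := by
    refine hμs.trans ((Real.sqrt_le_left (by norm_num)).2 ?_)
    linarith
  have hμ : |L.muu D N W| ≤ 1/2 := by linarith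
  have k1 := sum_psum_le (L := L) hu hu1 huE hμ
  have k2 := sum_muu_sq_le (L := L) hu hu1 huE hμ
  have hE' : 0 < (W.card : ℝ) - 3 := by linarith
  have e0 : ∑ t ∈ L.tris W, L.Yf D N (W \ t)
      = (∑ t ∈ L.tris W, L.Psum D N (W \ t)) / ((W.card : ℝ) - 3)
        + 2 * ∑ t ∈ L.tris W, L.muu D N (W \ t) ^ 2 := by
    rw [Finset.sum_div, Finset.mul_sum, ← Finset.sum_add_distrib]
    refine Finset.sum_congr rfl fun t ht => ?_
    rw [Yf, cast_card_sdiff ht]
  simp only [Finset.sum_add_distrib, Finset.sum_sub_distrib, ← Finset.mul_sum, Finset.sum_const,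
    nsmul_eq_mul] at k1 k2
  rw [e0]
  have eT : ((L.tris W).card : ℝ) = W.card * uu D N W * (1 + L.muu D N W) / 3 := by
    rw [muu]; field_simp; ring
  have eY : L.Yf D N W * W.card = L.Psum D N W + 2 * L.muu D N W ^ 2 * W.card := by
    rw [Yf]; field_simp
  have key := combine hu6 huE hP0 (Finset.sum_nonneg fun t _ => hM0 t) hμ4 hμs eT eY k1 k2
  have e1 : ((L.tris W).card : ℝ) * (L.Yf D N W + (6 * L.Yf D N W
        + 16000 * Real.sqrt (L.Yf D N W) * L.Yf D N W + 31000 / uu D N W) / ((W.card : ℝ) - 3))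
      = (((L.tris W).card : ℝ) * ((W.card : ℝ) - 3) * L.Yf D N W
        + ((L.tris W).card : ℝ) * (6 * L.Yf D N W
          + 16000 * Real.sqrt (L.Yf D N W) * L.Yf D N W + 31000 / uu D N W))
        / ((W.card : ℝ) - 3) := by
    field_simp
  rw [e1, le_div_iff₀ hE', add_mul, div_mul_cancel₀ _ hE'.ne']
  exact key

end step

end LH

end P046
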