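import Vale.Agent.P046.Count

/-!
P046, Theorem B: a deterministic lower bound for the expected number of final nodes.

With `g 0 = 3`, `g c = 1 / c`, the sum of `g (deg)` drifts down only through isolated edges; an
edge becomes isolated either next to a node that may lose its last edge, or through a node of large
degree, which `Σ deg [M < deg]` pays for. The only structural hypothesis is `Cross`, which the
triangles of a complete graph satisfy.
-/

namespace P046

open Finset

variable {α : Type} [DecidableEq α] (L : LH α)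

namespace LH

/-- Some node of `s` sees no edge meeting `t` other than `s`. -/
def Cross : Prop :=
  ∀ s ∈ L.H, ∀ t ∈ L.H, Disjoint s t → ∃ a ∈ s, ∀ r ∈ L.H, a ∈ r → r ≠ s → Disjoint r t

/-- The weight of a node of degree `c`. -/
noncomputable def gfin (c : ℕ) : ℝ := if c = 0 then 3 else 1 / c

/-- The isolated edges. -/
def iso (W : Finset α) : Finset (Finset α) :=
  (L.tris W).filter fun s => ∀ a ∈ s, L.deg W a = 1

/-- The nodes without an edge. -/
def free (W : Finset α) : Finset α := W.filter fun a => L.deg W a = 0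

/-- A degree above the threshold. -/
noncomputable def big (M : ℝ) (c : ℕ) : ℝ := if M < c then (c : ℝ) else 0

/-- The potential of the finish. -/
noncomputable def pot (M : ℝ) (W : Finset α) : ℝ :=
  ∑ a ∈ W, gfin (L.deg W a) - 3 * (L.iso W).card + 6 * M * (L.free W).card
    - 18 * ∑ a ∈ W, big M (L.deg W a)

variable {L}

theorem big_nonneg (M : ℝ) (c : ℕ) : 0 ≤ big M c := by
  unfold big; split_ifs <;> positivity

theorem big_mono {M : ℝ} {c d : ℕ} (h : c ≤ d) : big M c ≤ big M d := by
  have h' : (c : ℝ) ≤ d := by exact_mod_cast h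
  unfold big
  split_ifs with h1 h2
  · exact h'
  · exact absurd (lt_of_lt_of_le h1 h') h2
  · positivity
  · exact le_rfl

theorem deg_sdiff_le (W t : Finset α) (f : α) : L.deg (W \ t) f ≤ L.deg W f := by
  have := deg_sdiff (L := L) W t f
  omega

/-- The gain of one lost edge. -/
theorem gain_le (m : ℕ) :
    gfin (m + 1) - gfin (m + 2) ≤ gfin m - gfin (m + 1) := by
  rcases m with - | m
  · norm_num [gfin]
  · simp only [gfin, Nat.succ_ne_zero, if_false]
    push_cast
    rw [← sub_nonneg]
    have e : (1 / ((m : ℝ) + 1) - 1 / ((m : ℝ) + 1 + 1))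
        - (1 / ((m : ℝ) + 1 + 1) - 1 / ((m : ℝ) + 1 + 2))
        = 2 / (((m : ℝ) + 1) * ((m : ℝ) + 2) * ((m : ℝ) + 3)) := by
      field_simp
      ring
    rw [e]; positivity

/-- Losing `h` edges gains at least `h` times the last gain. -/
theorem gfin_drop (c' h : ℕ) :
    (h : ℝ) * (gfin (c' + h - 1) - gfin (c' + h)) ≤ gfin c' - gfin (c' + h) := by
  induction h with
  | zero => simp
  | succ h ih =>
    rcases h with - | h
    · simp
    · have := gain_le (c' + h)
      rw [show c' + (h + 1 + 1) = c' + h + 2 by ring,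
        show c' + h + 2 - 1 = c' + h + 1 by omega]
      rw [show c' + (h + 1) = c' + h + 1 by ring, show c' + h + 1 - 1 = c' + h by omega] at ih
      have := mul_le_mul_of_nonneg_left this (by positivity : (0 : ℝ) ≤ (h : ℝ) + 1)
      push_cast at ih ⊢
      linarith

/-- One node of an edge, in the variables `deg - 1`. -/
theorem term_eq {x : ℕ} (hx : 2 ≤ x) (R : ℝ) :
    (gfin (x - 1) - gfin x) * R - gfin x = (R - ((x : ℝ) - 1)) / (((x : ℝ) - 1) * x) := by
  have h2 : (2 : ℝ) ≤ x := by exact_mod_cast hx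
  simp only [gfin, show x - 1 ≠ 0 by omega, show x ≠ 0 by omega, if_false]
  rw [Nat.cast_sub (by omega), Nat.cast_one]
  have : (x : ℝ) - 1 ≠ 0 := by linarith
  field_simp
  ring

theorem three_pos {X Y Z : ℝ} (hX : 1 ≤ X) (hY : 1 ≤ Y) (hZ : 1 ≤ Z) (h : Y + Z ≤ X) :
    0 ≤ (Y + Z - X) / (X * (X + 1)) + (X + Z - Y) / (Y * (Y + 1))
      + (X + Y - Z) / (Z * (Z + 1)) := by
  have hneg : -(1 / (X + 1)) ≤ (Y + Z - X) / (X * (X + 1)) := by
    rw [neg_le_iff_add_nonneg', div_add_div _ _ (by positivity) (by positivity)]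
    exact div_nonneg (by nlinarith) (by positivity)
  have key : ∀ {A B : ℝ}, 1 ≤ A → A ≤ B → A + B ≤ X →
      1 / (X + 1) ≤ (X + B - A) / (A * (A + 1)) := by
    intro A B hA hAB hX'
    rw [div_le_div_iff₀ (by positivity) (by positivity), one_mul]
    exact mul_le_mul (by linarith) (by linarith) (by linarith) (by linarith)
  have other : ∀ {A B : ℝ}, 1 ≤ A → 1 ≤ B → A + B ≤ X → 0 ≤ (X + A - B) / (B * (B + 1)) :=
    fun hA hB hX' => div_nonneg (by linarith) (by positivity)
  rcases le_total Y Z with hYZ | hYZ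
  · have := key hY hYZ h
    have := other hY hZ h
    linarith
  · have := key hZ hYZ (by linarith)
    have := other hZ hY (by linarith)
    linarith

/-- The drift at one edge is nonnegative unless it is isolated. -/
theorem three_terms {x y z : ℕ} (hx : 1 ≤ x) (hy : 1 ≤ y) (hz : 1 ≤ z) :
    (if x = 1 ∧ y = 1 ∧ z = 1 then (-3 : ℝ) else 0) ≤
      ((gfin (x - 1) - gfin x) * ((y : ℝ) + z - 2) - gfin x)
        + ((gfin (y - 1) - gfin y) * ((x : ℝ) + z - 2) - gfin y)
        + ((gfin (z - 1) - gfin z) * ((x : ℝ) + y - 2) - gfin z) := by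
  have one : ∀ {a : ℕ}, a = 1 → gfin (a - 1) - gfin a = 2 ∧ gfin a = 1 := by
    rintro a rfl; norm_num [gfin]
  have low : ∀ {a : ℕ} (R : ℝ), 2 ≤ a → 0 ≤ R →
      -(1 / 2) ≤ (gfin (a - 1) - gfin a) * R - gfin a := by
    intro a R ha hR
    have h2 : (2 : ℝ) ≤ a := by exact_mod_cast ha
    rw [term_eq ha, le_div_iff₀ (by nlinarith)]
    nlinarith
  have hx' : (1 : ℝ) ≤ x := by exact_mod_cast hx
  have hy' : (1 : ℝ) ≤ y := by exact_mod_cast hy
  have hz' : (1 : ℝ) ≤ z := by exact_mod_cast hz
  by_cases h1 : x = 1 <;> by_cases h2 : y = 1 <;> by_cases h3 : z = 1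
  · subst h1 h2 h3; norm_num [gfin]
  all_goals rw [if_neg (by tauto)]
  · have := low ((x : ℝ) + y - 2) (show 2 ≤ z by omega) (by linarith)
    have hz2 : (2 : ℝ) ≤ z := by exact_mod_cast (show 2 ≤ z by omega)
    rw [(one h1).1, (one h1).2, (one h2).1, (one h2).2]
    subst h1 h2; push_cast at this ⊢; linarith
  · have := low ((x : ℝ) + z - 2) (show 2 ≤ y by omega) (by linarith)
    have hy2 : (2 : ℝ) ≤ y := by exact_mod_cast (show 2 ≤ y by omega)
    rw [(one h1).1, (one h1).2, (one h3).1, (one h3).2]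
    subst h1 h3; push_cast at this ⊢; linarith
  · have := low ((x : ℝ) + z - 2) (show 2 ≤ y by omega) (by linarith)
    have := low ((x : ℝ) + y - 2) (show 2 ≤ z by omega) (by linarith)
    have hy2 : (2 : ℝ) ≤ y := by exact_mod_cast (show 2 ≤ y by omega)
    have hz2 : (2 : ℝ) ≤ z := by exact_mod_cast (show 2 ≤ z by omega)
    rw [(one h1).1, (one h1).2]
    subst h1; push_cast at *; linarith
  · have := low ((y : ℝ) + z - 2) (show 2 ≤ x by omega) (by linarith)
    have hx2 : (2 : ℝ) ≤ x := by exact_mod_cast (show 2 ≤ x by omega)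
    rw [(one h2).1, (one h2).2, (one h3).1, (one h3).2]
    subst h2 h3; push_cast at this ⊢; linarith
  · have := low ((y : ℝ) + z - 2) (show 2 ≤ x by omega) (by linarith)
    have := low ((x : ℝ) + y - 2) (show 2 ≤ z by omega) (by linarith)
    have hx2 : (2 : ℝ) ≤ x := by exact_mod_cast (show 2 ≤ x by omega)
    have hz2 : (2 : ℝ) ≤ z := by exact_mod_cast (show 2 ≤ z by omega)
    rw [(one h2).1, (one h2).2]
    subst h2; push_cast at *; linarith
  · have := low ((y : ℝ) + z - 2) (show 2 ≤ x by omega) (by linarith)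
    have := low ((x : ℝ) + z - 2) (show 2 ≤ y by omega) (by linarith)
    have hx2 : (2 : ℝ) ≤ x := by exact_mod_cast (show 2 ≤ x by omega)
    have hy2 : (2 : ℝ) ≤ y := by exact_mod_cast (show 2 ≤ y by omega)
    rw [(one h3).1, (one h3).2]
    subst h3; push_cast at *; linarith
  · have hx2 : 1 ≤ (x : ℝ) - 1 := by
      have : (2 : ℝ) ≤ x := by exact_mod_cast (show 2 ≤ x by omega)
      linarith
    have hy2 : 1 ≤ (y : ℝ) - 1 := by
      have : (2 : ℝ) ≤ y := by exact_mod_cast (show 2 ≤ y by omega)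
      linarith
    have hz2 : 1 ≤ (z : ℝ) - 1 := by
      have : (2 : ℝ) ≤ z := by exact_mod_cast (show 2 ≤ z by omega)
      linarith
    rw [term_eq (show 2 ≤ x by omega), term_eq (show 2 ≤ y by omega),
      term_eq (show 2 ≤ z by omega)]
    obtain ⟨X, rfl'⟩ : ∃ X : ℝ, (x : ℝ) = X + 1 := ⟨(x : ℝ) - 1, by ring⟩
    obtain ⟨Y, rfl''⟩ : ∃ Y : ℝ, (y : ℝ) = Y + 1 := ⟨(y : ℝ) - 1, by ring⟩
    obtain ⟨Z, rfl'''⟩ : ∃ Z : ℝ, (z : ℝ) = Z + 1 := ⟨(z : ℝ) - 1, by ring⟩
    rw [rfl'] at hx2 ⊢
    rw [rfl''] at hy2 ⊢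
    rw [rfl'''] at hz2 ⊢
    simp only [add_sub_cancel_right] at hx2 hy2 hz2 ⊢
    rw [show Y + 1 + (Z + 1) - 2 - X = Y + Z - X by ring,
      show X + 1 + (Z + 1) - 2 - Y = X + Z - Y by ring,
      show X + 1 + (Y + 1) - 2 - Z = X + Y - Z by ring]
    rcases le_total (Y + Z) X with h | h
    · exact three_pos hx2 hy2 hz2 h
    rcases le_total (X + Z) Y with h' | h'
    · have := three_pos hy2 hx2 hz2 h'; rw [add_comm Y X] at this; linarith
    rcases le_total (X + Y) Z with h'' | h''
    · have := three_pos hz2 hx2 hy2 h''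
      rw [add_comm Z Y, add_comm Z X] at this; linarith
    exact add_nonneg (add_nonneg (div_nonneg (by linarith) (by positivity))
      (div_nonneg (by linarith) (by positivity))) (div_nonneg (by linarith) (by positivity))

/-- Swapping a sum over the nodes of the edges. -/
theorem sum_star_swap (W : Finset α) (φ : Finset α → α → ℝ) :
    ∑ f ∈ W, ∑ s ∈ L.star W f, φ s f = ∑ s ∈ L.tris W, ∑ a ∈ s, φ s a := by
  refine Finset.sum_comm' fun f s => ?_
  simp only [star, Finset.mem_filter]
  exact ⟨fun h => ⟨h.2.2, h.2.1⟩, fun h => ⟨(mem_tris.1 h.2).2 h.1, h.2, h.1⟩⟩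

/-- The drift of the weights. -/
theorem phi_drift (W : Finset α) :
    ((L.tris W).card : ℝ) * ∑ a ∈ W, gfin (L.deg W a) - 3 * (L.iso W).card
      ≤ ∑ t ∈ L.tris W, ∑ a ∈ W \ t, gfin (L.deg (W \ t) a) := by
  have h1 : ∀ t ∈ L.tris W,
      ∑ a ∈ W, gfin (L.deg W a) - ∑ a ∈ t, gfin (L.deg W a)
        + ∑ a ∈ W \ t, (gfin (L.deg W a - 1) - gfin (L.deg W a)) * (L.hit W t a).card
        ≤ ∑ a ∈ W \ t, gfin (L.deg (W \ t) a) := by
    intro t ht
    rw [← Finset.sum_sdiff (mem_tris.1 ht).2, add_sub_cancel_right, ← Finset.sum_add_distrib]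
    refine Finset.sum_le_sum fun a _ => ?_
    have h := gfin_drop (L.deg (W \ t) a) (L.hit W t a).card
    rw [deg_sdiff] at h
    linarith
  refine le_trans ?_ (Finset.sum_le_sum h1)
  rw [Finset.sum_add_distrib, Finset.sum_sub_distrib, Finset.sum_const, nsmul_eq_mul]
  have h2 : ∑ t ∈ L.tris W,
        ∑ a ∈ W \ t, (gfin (L.deg W a - 1) - gfin (L.deg W a)) * (L.hit W t a).card
      = ∑ s ∈ L.tris W, ∑ a ∈ s, (gfin (L.deg W a - 1) - gfin (L.deg W a))
          * ∑ b ∈ s.erase a, ((L.deg W b : ℝ) - 1) := by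
    rw [Finset.sum_comm' (t' := W) (s' := fun a => (L.tris W).filter (a ∉ ·))
      (h := fun t a => by simp only [Finset.mem_sdiff, Finset.mem_filter]; tauto)]
    simp only [← Finset.mul_sum, sum_hit]
    simp only [Finset.mul_sum]
    exact sum_star_swap W fun s a => ∑ b ∈ s.erase a,
      (gfin (L.deg W a - 1) - gfin (L.deg W a)) * ((L.deg W b : ℝ) - 1)
  rw [h2]
  have h3 : ∀ s ∈ L.tris W, (if s ∈ L.iso W then (-3 : ℝ) else 0)
      ≤ ∑ a ∈ s, (gfin (L.deg W a - 1) - gfin (L.deg W a))
          * (∑ b ∈ s.erase a, ((L.deg W b : ℝ) - 1)) - ∑ a ∈ s, gfin (L.deg W a) := by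
    intro s hs
    obtain ⟨a, b, c, hab, hac, hbc, rfl⟩ := Finset.card_eq_three.1 (card_tri hs)
    have e1 : ({a, b, c} : Finset α).erase a = {b, c} := by
      rw [Finset.erase_insert]; simp [hab, hac]
    have e2 : ({a, b, c} : Finset α).erase b = {a, c} := by
      ext v; simp only [Finset.mem_erase, Finset.mem_insert, Finset.mem_singleton]
      constructor
      · rintro ⟨h, h' | h' | h'⟩ <;> simp_all
      · rintro (rfl | rfl) <;> simp_all [Ne.symm]
    have e3 : ({a, b, c} : Finset α).erase c = {a, b} := by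
      ext v; simp only [Finset.mem_erase, Finset.mem_insert, Finset.mem_singleton]
      constructor
      · rintro ⟨h, h' | h' | h'⟩ <;> simp_all
      · rintro (rfl | rfl) <;> simp_all
    have hsum : ∀ φ : α → ℝ, ∑ v ∈ ({a, b, c} : Finset α), φ v = φ a + φ b + φ c := by
      intro φ
      rw [Finset.sum_insert (by simp [hab, hac]), Finset.sum_pair hbc]; ring
    rw [hsum, hsum, e1, e2, e3, Finset.sum_pair hbc, Finset.sum_pair hac, Finset.sum_pair hab]
    have hiso : ({a, b, c} : Finset α) ∈ L.iso W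
        ↔ L.deg W a = 1 ∧ L.deg W b = 1 ∧ L.deg W c = 1 := by
      simp [iso, hs]
    have h := three_terms (deg_pos hs (by simp : a ∈ ({a, b, c} : Finset α)))
      (deg_pos hs (by simp : b ∈ ({a, b, c} : Finset α)))
      (deg_pos hs (by simp : c ∈ ({a, b, c} : Finset α)))
    rw [if_congr hiso rfl rfl]
    linarith
  have h4 := Finset.sum_le_sum h3
  rw [Finset.sum_sub_distrib, Finset.sum_ite_mem, Finset.sum_const, nsmul_eq_mul,
    Finset.inter_eq_right.2 (show L.iso W ⊆ L.tris W from Finset.filter_subset _ _)] at h4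
  linarith

/-- The drift of the free nodes. -/
theorem free_drift (W : Finset α) :
    ((L.tris W).card : ℝ) * (L.free W).card
      + ((L.tris W).filter fun s => s ∉ L.iso W ∧ ∃ a ∈ s, L.deg W a = 1).card
      ≤ ∑ t ∈ L.tris W, ((L.free (W \ t)).card : ℝ) := by
  set P := (L.tris W).filter fun s => s ∉ L.iso W ∧ ∃ a ∈ s, L.deg W a = 1
  let new : Finset α → Finset α := fun t => (L.free (W \ t)).filter fun a => L.deg W a ≠ 0
  have h1 : ∀ t ∈ L.tris W, (L.free W).card + (new t).card ≤ (L.free (W \ t)).card := by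
    intro t ht
    rw [← Finset.card_union_of_disjoint]
    · refine Finset.card_le_card (Finset.union_subset (fun a ha => ?_) (Finset.filter_subset _ _))
      simp only [free, Finset.mem_filter, Finset.mem_sdiff] at ha ⊢
      refine ⟨⟨ha.1, fun hat => ?_⟩, ?_⟩
      · have := deg_pos ht hat; omega
      · have := deg_sdiff_le (L := L) W t a; omega
    · rw [Finset.disjoint_left]
      intro a ha ha'
      simp only [free, new, Finset.mem_filter] at ha ha'
      exact ha'.2 ha.2
  have h2 : P.card ≤ ((L.tris W).biUnion new).card := by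
    refine le_trans ?_ (le_refl _)
    have hex : ∀ s ∈ P, ∃ a ∈ s, L.deg W a = 1 ∧ a ∈ (L.tris W).biUnion new := by
      intro s hs
      simp only [P, Finset.mem_filter] at hs
      obtain ⟨hst, hni, a, has, ha⟩ := hs
      have hb : ∃ b ∈ s, 2 ≤ L.deg W b := by
        by_contra hc
        refine hni (Finset.mem_filter.2 ⟨hst, fun b hb => ?_⟩)
        have := deg_pos hst hb
        by_contra hb1
        exact hc ⟨b, hb, by omega⟩
      obtain ⟨b, hbs, hb⟩ := hb
      have hstar : s ∈ L.star W b := by simp [star, hst, hbs]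
      obtain ⟨r, hr, hrs⟩ := Finset.exists_mem_ne (by rw [← deg_eq]; omega) s (s := L.star W b)
      simp only [star, Finset.mem_filter] at hr
      have har : a ∉ r := fun har => by
        have hab : a ≠ b := fun e => by rw [e] at ha; omega
        exact hrs (L.linear r (mem_tris.1 hr.1).1 s (mem_tris.1 hst).1 a har b hr.2 has hbs hab)
      refine ⟨a, has, ha, Finset.mem_biUnion.2 ⟨r, hr.1, ?_⟩⟩
      have hz : L.deg (W \ r) a = 0 := by
        have e := deg_sdiff (L := L) W r a
        have : 0 < (L.hit W r a).card := Finset.card_pos.2 ⟨s, by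
          simp only [hit, star, Finset.mem_filter, Finset.not_disjoint_iff]
          exact ⟨⟨hst, has⟩, b, hbs, hr.2⟩⟩
        omega
      simp [new, free, Finset.mem_sdiff, (mem_tris.1 hst).2 has, har, hz, ha]
    rcases P.eq_empty_or_nonempty with hP | ⟨s0, hs0⟩
    · simp [hP]
    have : Nonempty α := ⟨(hex s0 hs0).choose⟩
    choose! pick hpick using hex
    refine Finset.card_le_card_of_injOn pick (fun s hs => (hpick s hs).2.2) fun s hs s' hs' e => ?_
    obtain ⟨h1, h2, -⟩ := hpick s hs
    obtain ⟨h1', -, -⟩ := hpick s' hs'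
    obtain ⟨u, hu⟩ := Finset.card_eq_one.1 ((deg_eq (L := L) W (pick s)).symm.trans h2)
    have m : ∀ v, v ∈ P → pick s ∈ v → v = u := fun v hv hav => by
      have : v ∈ L.star W (pick s) := by
        simp only [star, Finset.mem_filter]; exact ⟨(Finset.mem_filter.1 hv).1, hav⟩
      rw [hu] at this
      exact Finset.mem_singleton.1 this
    rw [m s hs h1, m s' hs' (e ▸ h1')]
  have h3 := Finset.sum_le_sum h1
  rw [Finset.sum_add_distrib, Finset.sum_const, smul_eq_mul] at h3
  have h4 := h2.trans Finset.card_biUnion_le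
  have : (L.tris W).card * (L.free W).card + P.card ≤ ∑ t ∈ L.tris W, (L.free (W \ t)).card := by
    omega
  exact_mod_cast this

/-- The drift of the isolated edges. -/
theorem iso_drift (hx : L.Cross) {M : ℝ} (hM : 0 ≤ M) (W : Finset α) :
    ∑ t ∈ L.tris W, ((L.iso (W \ t)).card : ℝ)
      ≤ ((L.tris W).card : ℝ) * (L.iso W).card - (L.iso W).card
        + 2 * M * ((L.tris W).filter fun s => s ∉ L.iso W ∧ ∃ a ∈ s, L.deg W a = 1).card
        + 6 * ∑ a ∈ W, (L.deg W a : ℝ) * big M (L.deg W a) := by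
  classical
  rcases isEmpty_or_nonempty α with he | he
  · have h0 : L.tris W = ∅ := Finset.eq_empty_of_forall_notMem fun t ht => by
      obtain ⟨a, -⟩ := Finset.card_pos.1 (by rw [card_tri ht]; norm_num : 0 < t.card)
      exact he.false a
    have h1 : W = ∅ := Finset.eq_empty_of_forall_notMem fun a _ => he.false a
    subst h1
    simp [h0, iso]
  set P := (L.tris W).filter fun s => s ∉ L.iso W ∧ ∃ a ∈ s, L.deg W a = 1
  let made : Finset α → Finset (Finset α) := fun t =>
    (L.iso (W \ t)).filter fun s => s ∉ L.iso W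
  have hmade : ∀ {s t : Finset α}, t ∈ L.tris W → s ∈ made t →
      s ∈ L.tris W ∧ Disjoint s t ∧ s ∈ P ∧ ∀ b ∈ s, L.deg W b ≤ 4 := by
    intro s t ht hs
    simp only [made, iso, Finset.mem_filter] at hs
    obtain ⟨⟨hst', h1⟩, hni⟩ := hs
    rw [tris_sdiff, Finset.mem_filter] at hst'
    obtain ⟨hst, hd⟩ := hst'
    refine ⟨hst, hd, ?_, fun b hb => ?_⟩
    · obtain ⟨a, has, ha⟩ := hx s (mem_tris.1 hst).1 t (mem_tris.1 ht).1 hd
      refine Finset.mem_filter.2 ⟨hst, by simpa [iso] using hni, a, has, ?_⟩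
      have e : L.hit W t a = ∅ := by
        refine Finset.filter_eq_empty_iff.2 fun r hr => not_not.2 ?_
        simp only [star, Finset.mem_filter] at hr
        by_cases hrs : r = s
        · exact hrs ▸ hd
        · exact ha r (mem_tris.1 hr.1).1 hr.2 hrs
      have := deg_sdiff (L := L) W t a
      rw [e, h1 a has, Finset.card_empty] at this
      omega
    · have h2 := deg_sdiff (L := L) W t b
      rw [h1 b hb] at h2
      have := hit_card_le ht (Finset.disjoint_left.1 hd hb)
      omega
  have hsplit : ∀ t ∈ L.tris W, (L.iso (W \ t)).card ≤ ((L.iso W).erase t).card + (made t).card := by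
    intro t ht
    refine le_trans (Finset.card_le_card ?_) (Finset.card_union_le _ _)
    intro s hs
    by_cases h : s ∈ L.iso W
    · refine Finset.mem_union_left _ (Finset.mem_erase.2 ⟨?_, h⟩)
      rintro rfl
      simp only [iso, tris_sdiff, Finset.mem_filter] at hs
      obtain ⟨a, ha⟩ := Finset.card_pos.1 (by rw [card_tri ht]; norm_num : 0 < s.card)
      exact Finset.disjoint_left.1 hs.1.2 ha ha
    · exact Finset.mem_union_right _ (Finset.mem_filter.2 ⟨hs, h⟩)
  -- the edges that may become isolated, each with one neighbouring edge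
  set P' := P.filter fun s => ∃ t ∈ L.tris W, s ∈ made t
  have hnb : ∀ s ∈ P', ∃ r b, r ∈ L.tris W ∧ r ≠ s ∧ b ∈ r ∧ b ∈ s := by
    intro s hs
    obtain ⟨hsP, -⟩ := Finset.mem_filter.1 hs
    obtain ⟨hst, hni, -⟩ := Finset.mem_filter.1 hsP
    by_contra hc
    refine hni (Finset.mem_filter.2 ⟨hst, fun b hb => ?_⟩)
    have h1 : L.star W b ⊆ {s} := fun r hr => by
      simp only [star, Finset.mem_filter] at hr
      by_contra hne
      exact hc ⟨r, b, hr.1, fun e => hne (Finset.mem_singleton.2 e), hr.2, hb⟩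
    have := Finset.card_le_card h1
    rw [← deg_eq, Finset.card_singleton] at this
    have := deg_pos hst hb
    omega
  choose! r b hr using hnb
  let N : Finset α → Finset α := fun s => (r s).erase (b s)
  have hrate : ∀ s ∈ P', ((L.tris W).filter (fun t => s ∈ made t)).card
      ≤ ∑ g ∈ N s, L.deg W g := by
    intro s hs
    obtain ⟨hr1, hr2, hr3, hr4⟩ := hr s hs
    refine le_trans (Finset.card_le_card ?_) Finset.card_biUnion_le
    intro t ht
    obtain ⟨ht, hst⟩ := Finset.mem_filter.1 ht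
    obtain ⟨hs1, hd, -, -⟩ := hmade ht hst
    have h1 : L.deg (W \ t) (b s) = 1 := by
      simp only [made, iso, Finset.mem_filter] at hst
      exact hst.1.2 _ hr4
    have hmeet : ¬ Disjoint (r s) t := fun hd' => by
      have h2 : ({s, r s} : Finset (Finset α)) ⊆ L.star (W \ t) (b s) := by
        intro v hv
        simp only [Finset.mem_insert, Finset.mem_singleton] at hv
        simp only [star, tris_sdiff, Finset.mem_filter]
        rcases hv with rfl | rfl
        · exact ⟨⟨hs1, hd⟩, hr4⟩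
        · exact ⟨⟨hr1, hd'⟩, hr3⟩
      have := Finset.card_le_card h2
      rw [← deg_eq, h1, Finset.card_pair hr2.symm] at this
      omega
    obtain ⟨g, hg, hgt⟩ := Finset.not_disjoint_iff.1 hmeet
    refine Finset.mem_biUnion.2 ⟨g, Finset.mem_erase.2 ⟨?_, hg⟩, Finset.mem_filter.2 ⟨ht, hgt⟩⟩
    rintro rfl
    exact Finset.disjoint_left.1 hd hr4 hgt
  have hmult : ∀ g ∈ W, ((P'.filter fun s => g ∈ N s).card : ℝ) ≤ 6 * L.deg W g := by
    intro g _
    let C : Finset α → Finset (Finset α) := fun v =>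
      ((v.erase g).filter fun c => L.deg W c ≤ 4).biUnion fun c => (L.star W c).erase v
    have hsub : (P'.filter fun s => g ∈ N s) ⊆ (L.star W g).biUnion C := by
      intro s hs
      obtain ⟨hs, hg⟩ := Finset.mem_filter.1 hs
      obtain ⟨hr1, hr2, hr3, hr4⟩ := hr s hs
      obtain ⟨hgb, hg⟩ := Finset.mem_erase.1 hg
      obtain ⟨hsP, t, ht, hst⟩ := Finset.mem_filter.1 hs
      obtain ⟨hs1, -, -, h4⟩ := hmade ht hst
      refine Finset.mem_biUnion.2 ⟨r s, by simp [star, hr1, hg], Finset.mem_biUnion.2 ⟨b s, ?_, ?_⟩⟩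
      · exact Finset.mem_filter.2 ⟨Finset.mem_erase.2 ⟨Ne.symm hgb, hr3⟩, h4 _ hr4⟩
      · exact Finset.mem_erase.2 ⟨hr2.symm, by simp [star, hs1, hr4]⟩
    have hC : ∀ v ∈ L.star W g, (C v).card ≤ 6 := by
      intro v hv
      simp only [star, Finset.mem_filter] at hv
      refine Finset.card_biUnion_le.trans ?_
      have : ∀ c ∈ (v.erase g).filter (fun c => L.deg W c ≤ 4),
          ((L.star W c).erase v).card ≤ 3 := by
        intro c hc
        obtain ⟨hc, hc4⟩ := Finset.mem_filter.1 hc
        rw [Finset.card_erase_of_mem (by simp [star, hv.1, (Finset.mem_erase.1 hc).2]), ← deg_eq]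
        omega
      refine (Finset.sum_le_card_nsmul _ _ _ this).trans ?_
      have h2 := Finset.card_filter_le (v.erase g) (fun c => L.deg W c ≤ 4)
      rw [Finset.card_erase_of_mem hv.2, card_tri hv.1] at h2
      rw [smul_eq_mul]; omega
    have := (Finset.card_le_card hsub).trans
      (Finset.card_biUnion_le.trans (Finset.sum_le_card_nsmul _ _ _ hC))
    rw [smul_eq_mul, ← deg_eq, mul_comm] at this
    exact_mod_cast this
  have h1 : (∑ t ∈ L.tris W, ((made t).card : ℝ))
      ≤ 2 * M * P.card + 6 * ∑ a ∈ W, (L.deg W a : ℝ) * big M (L.deg W a) := by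
    have e : ∑ t ∈ L.tris W, (made t).card
        = ∑ s ∈ P', ((L.tris W).filter (fun t => s ∈ made t)).card := by
      simp only [Finset.card_eq_sum_ones]
      refine Finset.sum_comm' fun t s => ?_
      simp only [Finset.mem_filter, P']
      exact ⟨fun h => ⟨⟨h.1, h.2⟩, (hmade h.1 h.2).2.2.1, t, h.1, h.2⟩, fun h => ⟨h.1.1, h.1.2⟩⟩
    calc (∑ t ∈ L.tris W, ((made t).card : ℝ))
        = ∑ s ∈ P', (((L.tris W).filter (fun t => s ∈ made t)).card : ℝ) := by exact_mod_cast e
      _ ≤ ∑ s ∈ P', ∑ g ∈ N s, (L.deg W g : ℝ) :=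
          Finset.sum_le_sum fun s hs => by exact_mod_cast hrate s hs
      _ ≤ ∑ s ∈ P', ∑ g ∈ N s, (M + big M (L.deg W g)) := by
          refine Finset.sum_le_sum fun s _ => Finset.sum_le_sum fun g _ => ?_
          unfold big; split_ifs <;> linarith
      _ = ∑ s ∈ P', ((N s).card * M + ∑ g ∈ N s, big M (L.deg W g)) := by
          simp [Finset.sum_add_distrib]
      _ ≤ 2 * M * P.card + ∑ s ∈ P', ∑ g ∈ N s, big M (L.deg W g) := by
          rw [Finset.sum_add_distrib, add_le_add_iff_right]
          have : ∀ s ∈ P', ((N s).card : ℝ) * M ≤ 2 * M := fun s hs => by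
            obtain ⟨hr1, -, hr3, -⟩ := hr s hs
            rw [Finset.card_erase_of_mem hr3, card_tri hr1]; norm_num
          refine (Finset.sum_le_card_nsmul _ _ _ this).trans ?_
          rw [nsmul_eq_mul, mul_comm]
          exact mul_le_mul_of_nonneg_left
            (by exact_mod_cast Finset.card_filter_le _ _) (by positivity)
      _ ≤ _ := by
          rw [add_le_add_iff_left, Finset.sum_comm' (t' := W)
            (s' := fun g => P'.filter fun s => g ∈ N s) (h := fun s g => ?_), Finset.mul_sum]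
          · refine Finset.sum_le_sum fun g hg => ?_
            rw [Finset.sum_const, nsmul_eq_mul, ← mul_assoc]
            exact mul_le_mul_of_nonneg_right (hmult g hg) (big_nonneg _ _)
          · simp only [Finset.mem_filter]
            exact ⟨fun h => ⟨⟨h.1, h.2⟩,
              (mem_tris.1 (hr s h.1).1).2 (Finset.mem_of_mem_erase h.2)⟩, fun h => h.1⟩
  have h2 : (∑ t ∈ L.tris W, ((L.iso (W \ t)).card : ℝ))
      ≤ ∑ t ∈ L.tris W, (((L.iso W).card : ℝ) - (if t ∈ L.iso W then 1 else 0))
        + ∑ t ∈ L.tris W, ((made t).card : ℝ) := by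
    rw [← Finset.sum_add_distrib]
    refine Finset.sum_le_sum fun t ht => ?_
    have h := hsplit t ht
    by_cases hti : t ∈ L.iso W
    · have := Finset.card_erase_add_one hti
      rw [if_pos hti]
      have e : (L.iso (W \ t)).card + 1 ≤ (L.iso W).card + (made t).card := by omega
      have : ((L.iso (W \ t)).card : ℝ) + 1 ≤ (L.iso W).card + (made t).card := by exact_mod_cast e
      linarith
    · rw [Finset.erase_eq_of_notMem hti] at h
      rw [if_neg hti, sub_zero]
      exact_mod_cast h
  rw [Finset.sum_sub_distrib, Finset.sum_const, nsmul_eq_mul, Finset.sum_ite_mem,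
    Finset.inter_eq_right.2 (show L.iso W ⊆ L.tris W from Finset.filter_subset _ _), Finset.sum_const,
    nsmul_one] at h2
  linarith

/-- The drift of the large degrees. -/
theorem big_drift (M : ℝ) (W : Finset α) :
    ∑ t ∈ L.tris W, ∑ a ∈ W \ t, big M (L.deg (W \ t) a)
      ≤ ((L.tris W).card : ℝ) * ∑ a ∈ W, big M (L.deg W a)
        - ∑ a ∈ W, (L.deg W a : ℝ) * big M (L.deg W a) := by
  rw [← sum_tris_sum (L := L) W fun a => big M (L.deg W a), ← nsmul_eq_mul, ← Finset.sum_const,
    ← Finset.sum_sub_distrib]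
  refine Finset.sum_le_sum fun t ht => ?_
  rw [← Finset.sum_sdiff (mem_tris.1 ht).2, add_sub_cancel_right]
  exact Finset.sum_le_sum fun a _ => big_mono (deg_sdiff_le W t a)

/-- The potential is a submartingale. -/
theorem pot_drift (hx : L.Cross) {M : ℝ} (hM : 0 ≤ M) {W : Finset α} (h : L.tris W ≠ ∅) :
    L.pot M W ≤ L.avg (L.pot M) W := by
  rw [avg, le_div_iff₀ (card_pos h)]
  have h1 := phi_drift (L := L) W
  have h2 := iso_drift hx hM W
  have h3 := mul_le_mul_of_nonneg_left (free_drift (L := L) W) (by positivity : 0 ≤ 6 * M)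
  have h4 := big_drift (L := L) M W
  simp only [pot, Finset.sum_sub_distrib, Finset.sum_add_distrib, ← Finset.mul_sum]
  linarith

/-- **Theorem B**: a lower bound for the expected number of final nodes. -/
theorem finish_lower (hx : L.Cross) {M : ℝ} (hM : 0 < M) (U : Finset α) :
    ∑ a ∈ U.filter (fun a => 2 ≤ L.deg U a), (1 / (L.deg U a : ℝ))
      - 18 / M * ∑ a ∈ U, (L.deg U a : ℝ) ^ 2
      ≤ (6 * M + 3) * L.ex (fun W => (W.card : ℝ)) U := by
  rw [← ex_mul]
  refine le_trans ?_ (le_ex (Ψ := L.pot M) (fun W _ hW => ?_) fun W _ hW => pot_drift hx hM.le hW)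
  · have hI : 3 * ((L.iso U).card : ℝ) ≤ ∑ a ∈ U, (if L.deg U a = 1 then (1 : ℝ) else 0) := by
      have e : ∑ a ∈ U, (if L.deg U a = 1 then (1 : ℝ) else 0)
          = ∑ s ∈ L.tris U, ∑ a ∈ s, (if L.deg U a = 1 then (1 : ℝ) else 0) := by
        rw [sum_tris_sum]
        exact Finset.sum_congr rfl fun a _ => by split_ifs with h <;> simp [h]
      rw [e]
      refine le_trans ?_ (Finset.sum_le_sum_of_subset_of_nonneg
        (show L.iso U ⊆ L.tris U from Finset.filter_subset _ _)
        fun s _ _ => Finset.sum_nonneg fun a _ => by split_ifs <;> norm_num)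
      rw [Finset.sum_congr rfl fun s hs => by
        rw [Finset.sum_congr rfl fun a ha => if_pos ((Finset.mem_filter.1 hs).2 a ha),
          Finset.sum_const, card_tri (Finset.mem_filter.1 hs).1, nsmul_one]]
      rw [Finset.sum_const, nsmul_eq_mul]
      norm_num [iso, mul_comm]
    have hB : ∑ a ∈ U, big M (L.deg U a) ≤ (1 / M) * ∑ a ∈ U, (L.deg U a : ℝ) ^ 2 := by
      rw [Finset.mul_sum]
      refine Finset.sum_le_sum fun a _ => ?_
      unfold big
      split_ifs with h
      · rw [one_div_mul_eq_div, le_div_iff₀ hM, sq]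
        exact mul_le_mul_of_nonneg_left h.le (by positivity)
      · positivity
    have hS : (∑ a ∈ U.filter (fun a => 2 ≤ L.deg U a), (1 / (L.deg U a : ℝ)))
        + ∑ a ∈ U, (if L.deg U a = 1 then (1 : ℝ) else 0) ≤ ∑ a ∈ U, gfin (L.deg U a) := by
      rw [Finset.sum_filter, ← Finset.sum_add_distrib]
      refine Finset.sum_le_sum fun a _ => ?_
      rcases Nat.lt_or_ge (L.deg U a) 2 with h | h
      · rw [if_neg (by omega)]
        interval_cases L.deg U a <;> norm_num [gfin]
      · rw [if_pos h, if_neg (by omega), add_zero, gfin, if_neg (by omega)]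
    have : 0 ≤ 6 * M * ((L.free U).card : ℝ) := by positivity
    simp only [pot, div_mul_eq_mul_div] at *
    rw [one_mul] at hB
    rw [mul_div_assoc]
    linarith
  · have hd : ∀ a, L.deg W a = 0 := fun a => by simp [deg, hW]
    have h1 : L.free W = W := Finset.filter_true_of_mem fun a _ => hd a
    have h2 : L.iso W = ∅ := by simp [iso, hW]
    simp only [pot, hd, h1, h2, gfin, big, if_true, Finset.sum_const, nsmul_eq_mul,
      Finset.card_empty, Nat.cast_zero]
    split_ifs <;> linarith

/-- Cauchy-Schwarz form of the main term. -/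
theorem sum_inv_deg_ge (U : Finset α) (h : L.tris U ≠ ∅) :
    ((U.filter fun a => 2 ≤ L.deg U a).card : ℝ) ^ 2 / (3 * (L.tris U).card)
      ≤ ∑ a ∈ U.filter (fun a => 2 ≤ L.deg U a), (1 / (L.deg U a : ℝ)) := by
  set S := U.filter fun a => 2 ≤ L.deg U a
  have hpos : ∀ a ∈ S, (0 : ℝ) < L.deg U a := fun a ha => by
    have := (Finset.mem_filter.1 ha).2
    exact_mod_cast (show 0 < L.deg U a by omega)
  rw [div_le_iff₀ (by have := card_pos h; positivity), ← sum_deg]
  have h1 := Finset.sum_mul_sq_le_sq_mul_sq S (fun a => Real.sqrt (1 / (L.deg U a : ℝ)))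
    fun a => Real.sqrt (L.deg U a : ℝ)
  rw [Finset.sum_congr rfl fun a ha => show Real.sqrt (1 / (L.deg U a : ℝ))
      * Real.sqrt (L.deg U a : ℝ) = 1 by
      rw [← Real.sqrt_mul (by positivity), one_div_mul_cancel (hpos a ha).ne', Real.sqrt_one],
    Finset.sum_const, nsmul_one] at h1
  rw [Finset.sum_congr rfl fun a ha => Real.sq_sqrt (by positivity : (0 : ℝ) ≤ 1 / (L.deg U a)),
    Finset.sum_congr rfl fun a ha => Real.sq_sqrt (hpos a ha).le] at h1
  refine h1.trans (mul_le_mul_of_nonneg_left ?_ (Finset.sum_nonneg fun a _ => by positivity))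
  exact Finset.sum_le_sum_of_subset_of_nonneg (Finset.filter_subset _ _) fun a _ _ => by positivity

end LH

end P046
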