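import Vale.Agent.P046.Finish

/-!
P046, the second moment of the degrees and the assembly of the lower bound.

`S = Σ deg²` loses `Σ_{a ∈ t} deg a ²` at every step, so `avg S ≤ S - S² / (3 T²)` and
`S / (1 + A S)` is a supermartingale as long as `A` grows by at most `1 / (3 T²)` per step. With
`finish_lower` this turns a stopped supermartingale `H` (the probability of leaving the good states)
into a lower bound for the expected number of final nodes.
-/

namespace P046

open Finset

variable {α : Type} [DecidableEq α] {L : LH α}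

namespace LH

/-- The second moment of the degrees. -/
def sq2 (L : LH α) (W : Finset α) : ℝ := ∑ a ∈ W, (L.deg W a : ℝ) ^ 2

/-- The damped second moment. -/
noncomputable def damp (A S : ℝ) : ℝ := S / (1 + A * S)

theorem sq2_nonneg (W : Finset α) : 0 ≤ L.sq2 W := Finset.sum_nonneg fun _ _ => by positivity

/-- The drift of the second moment. -/
theorem sq2_drift {W : Finset α} (h : L.tris W ≠ ∅) :
    L.avg L.sq2 W ≤ L.sq2 W - L.sq2 W ^ 2 / (3 * ((L.tris W).card : ℝ) ^ 2) := by
  have hT := card_pos h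
  have h1 : ∑ t ∈ L.tris W, L.sq2 (W \ t)
      ≤ (L.tris W).card * L.sq2 W - ∑ a ∈ W, (L.deg W a : ℝ) * (L.deg W a : ℝ) ^ 2 := by
    rw [← sum_tris_sum, ← nsmul_eq_mul, ← Finset.sum_const, ← Finset.sum_sub_distrib]
    refine Finset.sum_le_sum fun t ht => ?_
    unfold sq2
    rw [← Finset.sum_sdiff (mem_tris.1 ht).2, add_sub_cancel_right]
    exact Finset.sum_le_sum fun a _ =>
      pow_le_pow_left₀ (by positivity) (by exact_mod_cast deg_sdiff_le W t a) 2
  have h2 : L.sq2 W ^ 2
      ≤ 3 * (L.tris W).card * ∑ a ∈ W, (L.deg W a : ℝ) * (L.deg W a : ℝ) ^ 2 := by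
    rw [← sum_deg]
    exact Finset.sum_sq_le_sum_mul_sum_of_sq_le_mul W (fun a _ => by positivity)
      (fun a _ => by positivity) fun a _ => by ring_nf; rfl
  rw [avg, div_le_iff₀ hT]
  refine h1.trans ?_
  have : (L.sq2 W - L.sq2 W ^ 2 / (3 * ((L.tris W).card : ℝ) ^ 2)) * (L.tris W).card
      = (L.tris W).card * L.sq2 W - L.sq2 W ^ 2 / (3 * (L.tris W).card) := by
    field_simp
  rw [this]
  gcongr
  rw [div_le_iff₀ (by positivity)]
  linarith

/-- The damped moment lies below its tangents. -/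
theorem damp_tangent {A s m : ℝ} (hA : 0 ≤ A) (hs : 0 ≤ s) (hm : 0 ≤ m) :
    damp A s ≤ damp A m + (s - m) / (1 + A * m) ^ 2 := by
  have h1 : 0 < 1 + A * s := by positivity
  have h2 : 0 < 1 + A * m := by positivity
  have e : damp A m + (s - m) / (1 + A * m) ^ 2 - damp A s
      = A * (s - m) ^ 2 / ((1 + A * s) * (1 + A * m) ^ 2) := by
    unfold damp
    field_simp
    ring
  have : 0 ≤ A * (s - m) ^ 2 / ((1 + A * s) * (1 + A * m) ^ 2) := by positivity
  linarith

/-- The damped moment is a supermartingale. -/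
theorem damp_step {W : Finset α} (h : L.tris W ≠ ∅) {A B a : ℝ} (hA : 0 ≤ A) (hB : 0 ≤ B)
    (ha : 0 ≤ a) (hAB : A ≤ a + B) (haT : a * (3 * ((L.tris W).card : ℝ) ^ 2) ≤ 1) :
    L.avg (fun V => damp B (L.sq2 V)) W ≤ damp A (L.sq2 W) := by
  have hT := card_pos h
  have hS := sq2_nonneg (L := L) W
  set S := L.sq2 W with hSdef
  set m := L.avg L.sq2 W
  have hm : 0 ≤ m := div_nonneg (Finset.sum_nonneg fun _ _ => sq2_nonneg _) hT.le
  have h1 : L.avg (fun V => damp B (L.sq2 V)) W ≤ damp B m := by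
    rw [avg, div_le_iff₀ hT]
    refine (Finset.sum_le_sum fun t _ => damp_tangent hB (sq2_nonneg (W \ t)) hm).trans_eq ?_
    rw [Finset.sum_add_distrib, Finset.sum_const, nsmul_eq_mul, ← Finset.sum_div,
      Finset.sum_sub_distrib, Finset.sum_const, nsmul_eq_mul]
    have e : ∑ t ∈ L.tris W, L.sq2 (W \ t) = (L.tris W).card * m := by
      simp only [m, avg]; field_simp
    rw [e, sub_self, zero_div, add_zero, mul_comm]
  have h2 : m ≤ S / (1 + a * S) := by
    have h2' : m ≤ S - a * S ^ 2 := by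
      refine (sq2_drift h).trans (sub_le_sub_left ?_ _)
      rw [le_div_iff₀ (by positivity)]
      nlinarith [mul_le_mul_of_nonneg_right haT (sq_nonneg S)]
    refine h2'.trans ?_
    rw [le_div_iff₀ (by positivity)]
    nlinarith [mul_nonneg (mul_nonneg ha ha) (pow_nonneg hS 3)]
  refine h1.trans ?_
  have h3 : damp B m ≤ damp B (S / (1 + a * S)) := by
    unfold damp
    rw [div_le_div_iff₀ (by positivity) (by positivity)]
    linarith [(by ring : m * (B * (S / (1 + a * S))) = S / (1 + a * S) * (B * m))]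
  refine h3.trans ?_
  have e : damp B (S / (1 + a * S)) = S / (1 + (a + B) * S) := by
    unfold damp
    have h0 : 1 + a * S ≠ 0 := by positivity
    have h0' : 1 + (a + B) * S ≠ 0 := by positivity
    field_simp
    ring
  rw [e, damp]
  gcongr

/-- Lower bounds, stopped, on a region of states that the steps respect. -/
theorem le_ex_stop {f Ψ : Finset α → ℝ} {R : Finset α → Prop} {U : Finset α} (hU : R U)
    (h : ∀ W, W ⊆ U → R W → Ψ W ≤ L.ex f W
      ∨ (L.tris W ≠ ∅ ∧ (∀ t ∈ L.tris W, R (W \ t)) ∧ Ψ W ≤ L.avg Ψ W)) :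
    Ψ U ≤ L.ex f U := by
  refine ex_induction (L := L) (P := fun W => W ⊆ U → R W → Ψ W ≤ L.ex f W)
    (fun W ih hW hR => ?_) U subset_rfl hU
  rcases h W hW hR with h' | ⟨h1, h2, h3⟩
  · exact h'
  · rw [ex_step h1]
    exact h3.trans (avg_mono fun t ht => ih t ht (Finset.sdiff_subset.trans hW) (h2 t ht))

/-- The finish started from a good state at level `k`. -/
theorem finish_at (hx : L.Cross) {M B : ℝ} (hM : 0 < M) (hB : 0 < B) {k : ℕ} {W : Finset α}
    (hk : k ≤ W.card) (hk' : W.card ≤ k + 2) (hne : L.tris W ≠ ∅)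
    (hT : ((L.tris W).card : ℝ) ≤ B * W.card ^ 3)
    (hc : (W.card : ℝ) / 2 ≤ (W.filter fun a => 2 ≤ L.deg W a).card) :
    (k / 2 : ℝ) ^ 2 / (3 * (B * (k + 2) ^ 3)) - 18 / M * L.sq2 W
      ≤ (6 * M + 3) * L.ex (fun V => (V.card : ℝ)) W := by
  refine le_trans (sub_le_sub_right ?_ _) (finish_lower hx hM W)
  refine le_trans ?_ (sum_inv_deg_ge W hne)
  have hk1 : (k : ℝ) ≤ W.card := by exact_mod_cast hk
  have hk2 : (W.card : ℝ) ≤ k + 2 := by exact_mod_cast hk'
  have := card_pos hne
  refine div_le_div₀ (by positivity) (pow_le_pow_left₀ (by positivity) ?_ 2) (by positivity) ?_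
  · linarith
  · exact mul_le_mul_of_nonneg_left (hT.trans (by gcongr)) (by norm_num)

/-- One step of `1 / j⁵`. -/
theorem inv_pow_step {x : ℝ} (hx : 30 ≤ x) : 1 / (x - 3) ^ 5 - 1 / x ^ 5 ≤ 30 / x ^ 6 := by
  have hy : 0 < x - 3 := by linarith
  rw [div_sub_div _ _ (by positivity) (by positivity),
    div_le_div_iff₀ (by positivity) (by positivity)]
  have h1 : x ^ 5 - (x - 3) ^ 5 ≤ 15 * x ^ 4 := by
    nlinarith [mul_le_mul_of_nonneg_right hx (by positivity : 0 ≤ x ^ 2),
      mul_le_mul_of_nonneg_right hx (by linarith : 0 ≤ x)]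
  have h2 : x ^ 5 ≤ 2 * (x - 3) ^ 5 := by
    have h : (9 / 10 * x) ^ 5 ≤ (x - 3) ^ 5 := pow_le_pow_left₀ (by positivity) (by linarith) 5
    nlinarith [pow_nonneg (by linarith : (0 : ℝ) ≤ x) 5]
  have h3 := mul_le_mul h1 (le_refl (x ^ 6)) (by positivity) (by positivity)
  have h4 := mul_le_mul_of_nonneg_left h2 (by positivity : 0 ≤ 15 * x ^ 5)
  nlinarith

/-- **The lower bound from a stopped supermartingale.** `Good` are the states where the process
behaves, `H` dominates the probability of leaving them. -/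
theorem lower_of_stop (hx : L.Cross) {U : Finset α} {Good : Finset α → Prop} {H : Finset α → ℝ}
    {B : ℝ} {k : ℕ} (hB : 0 < B) (hk : 30 ≤ k) (hkU : 2 * (k + 2) ≤ U.card)
    (hu : 1 ≤ B * (k : ℝ) ^ 2)
    (hH0 : ∀ W, W ⊆ U → 0 ≤ H W) (hHU : H U ≤ 1 / 2)
    (hbad : ∀ W, W ⊆ U → k ≤ W.card → ¬Good W → 1 ≤ H W)
    (hstep : ∀ W, W ⊆ U → k + 3 ≤ W.card → Good W → L.avg H W ≤ H W)
    (hne : ∀ W, W ⊆ U → k ≤ W.card → Good W → L.tris W ≠ ∅)
    (hT : ∀ W, W ⊆ U → k ≤ W.card → Good W → ((L.tris W).card : ℝ) ≤ B * W.card ^ 3)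
    (hc : ∀ W, W ⊆ U → k ≤ W.card → W.card ≤ k + 2 → Good W →
      (W.card : ℝ) / 2 ≤ (W.filter fun a => 2 ≤ L.deg W a).card) :
    (k : ℝ) ≤ 200000000 * (B * (k : ℝ) ^ 2) ^ 4 * L.ex (fun V => (V.card : ℝ)) U := by
  classical
  have hk30 : (30 : ℝ) ≤ k := by exact_mod_cast hk
  set M : ℝ := 300000 * B ^ 3 * (k : ℝ) ^ 6 with hMdef
  have hM : 0 < M := by rw [hMdef]; positivity
  set c : ℝ := 1 / (90 * B ^ 2) with hc_def
  have hc0 : 0 ≤ c := by positivity
  let A : ℕ → ℝ := fun j => c * max 0 (1 / ((k : ℝ) + 2) ^ 5 - 1 / (j : ℝ) ^ 5)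
  have hA0 : ∀ j, 0 ≤ A j := fun j => mul_nonneg hc0 (le_max_left _ _)
  set D : ℝ := (k / 2 : ℝ) ^ 2 / (3 * (B * ((k : ℝ) + 2) ^ 3)) with hD
  let Ψ : Finset α → ℝ := fun W => D * (1 - H W) - 18 / M * damp (A W.card) (L.sq2 W)
  have hD0 : 0 ≤ D := by positivity
  have hex0 : ∀ W, 0 ≤ L.ex (fun V => (6 * M + 3) * (V.card : ℝ)) W := fun W => by
    rw [← ex_const (L := L) 0 W]
    exact ex_mono fun V _ => by positivity
  have main : Ψ U ≤ L.ex (fun V => (6 * M + 3) * (V.card : ℝ)) U := by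
    refine le_ex_stop (R := fun W => k ≤ W.card) (by omega) fun W hW hR => ?_
    have hdamp : 0 ≤ 18 / M * damp (A W.card) (L.sq2 W) := by
      have := hA0 W.card
      have := sq2_nonneg (L := L) W
      unfold damp; positivity
    by_cases hg : Good W
    · rcases Nat.lt_or_ge W.card (k + 3) with hlt | hge
      · left
        have hA : A W.card = 0 := by
          have h1 : (0 : ℝ) < W.card := by exact_mod_cast (show 0 < W.card by omega)
          have h2 : (W.card : ℝ) ≤ (k : ℝ) + 2 := by exact_mod_cast (show W.card ≤ k + 2 by omega)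
          simp only [A]
          rw [max_eq_left, mul_zero]
          rw [sub_nonpos]
          gcongr
        have h := finish_at hx hM hB hR (by omega) (hne W hW hR hg) (hT W hW hR hg)
          (hc W hW hR (by omega) hg)
        have := mul_nonneg hD0 (hH0 W hW)
        rw [← ex_mul] at h
        simp only [Ψ, hA, damp, zero_mul, add_zero, div_one]
        linarith
      · right
        have h0 := hne W hW hR hg
        refine ⟨h0, fun t ht => ?_, ?_⟩
        · have := card_sdiff_tri ht; omega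
        · have hT0 := card_pos h0
          have hx30 : (30 : ℝ) ≤ W.card := by exact_mod_cast (show 30 ≤ W.card by omega)
          set B' : ℝ := A (W.card - 3)
          have hd : L.avg (fun V => damp B' (L.sq2 V)) W ≤ damp (A W.card) (L.sq2 W) := by
            refine damp_step h0 (hA0 _) (hA0 _) (by positivity : 0 ≤ c * (30 / (W.card : ℝ) ^ 6))
              ?_ ?_
            · simp only [B', A]
              rw [← mul_add, Nat.cast_sub (by omega), Nat.cast_ofNat]
              gcongr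
              have := inv_pow_step hx30
              have := le_max_left (0 : ℝ) (1 / ((k : ℝ) + 2) ^ 5 - 1 / ((W.card : ℝ) - 3) ^ 5)
              have := le_max_right (0 : ℝ) (1 / ((k : ℝ) + 2) ^ 5 - 1 / ((W.card : ℝ) - 3) ^ 5)
              have : 0 ≤ 30 / (W.card : ℝ) ^ 6 := by positivity
              exact max_le (by linarith) (by linarith)
            · have h2 := pow_le_pow_left₀ hT0.le (hT W hW hR hg) 2
              calc c * (30 / (W.card : ℝ) ^ 6) * (3 * ((L.tris W).card : ℝ) ^ 2)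
                  ≤ c * (30 / (W.card : ℝ) ^ 6) * (3 * (B * (W.card : ℝ) ^ 3) ^ 2) := by gcongr
                _ = 1 := by rw [hc_def]; field_simp; ring
          have hH := mul_le_mul_of_nonneg_left (hstep W hW hge hg) hD0
          have hd' := mul_le_mul_of_nonneg_left hd (by positivity : 0 ≤ 18 / M)
          have e : L.avg Ψ W = D * (1 - L.avg H W)
              - 18 / M * L.avg (fun V => damp B' (L.sq2 V)) W := by
            rw [avg_congr (g := fun V => D * (1 - H V) - 18 / M * damp B' (L.sq2 V))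
              (fun t ht => by
                have := card_sdiff_tri ht
                simp only [Ψ, B', show (W \ t).card = W.card - 3 by omega])]
            simp only [avg, Finset.sum_sub_distrib, ← Finset.mul_sum, Finset.sum_const,
              nsmul_one]
            field_simp
          simp only [Ψ] at e ⊢
          linarith
    · left
      refine le_trans ?_ (hex0 W)
      have := mul_le_mul_of_nonneg_left (hbad W hW hR hg) hD0
      simp only [Ψ]
      linarith
  rw [ex_mul] at main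
  -- the numbers
  have hUc : 2 * ((k : ℝ) + 2) ≤ U.card := by exact_mod_cast hkU
  have hAU : c / (2 * ((k : ℝ) + 2) ^ 5) ≤ A U.card := by
    simp only [A]
    rw [div_eq_mul_one_div]
    refine mul_le_mul_of_nonneg_left (le_trans ?_ (le_max_right _ _)) hc0
    have h1 : 1 / (U.card : ℝ) ^ 5 ≤ 1 / (2 * ((k : ℝ) + 2)) ^ 5 := by gcongr
    have h2 : 1 / (2 * ((k : ℝ) + 2)) ^ 5 = 1 / ((k : ℝ) + 2) ^ 5 / 32 := by
      rw [mul_pow, div_div, mul_comm ((2 : ℝ) ^ 5)]; norm_num
    have h3 : 1 / (2 * ((k : ℝ) + 2) ^ 5) = 1 / ((k : ℝ) + 2) ^ 5 / 2 := by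
      rw [div_div, mul_comm (2 : ℝ)]
    have : 0 < 1 / ((k : ℝ) + 2) ^ 5 := by positivity
    linarith
  have hdU : damp (A U.card) (L.sq2 U) ≤ 180 * B ^ 2 * ((k : ℝ) + 2) ^ 5 := by
    have h0 := sq2_nonneg (L := L) U
    have hA := hA0 U.card
    have e : c / (2 * ((k : ℝ) + 2) ^ 5) = 1 / (180 * B ^ 2 * ((k : ℝ) + 2) ^ 5) := by
      rw [hc_def]; field_simp; ring
    rw [e, div_le_iff₀ (by positivity)] at hAU
    unfold damp
    rw [div_le_iff₀ (by positivity)]
    have := mul_le_mul_of_nonneg_left hAU h0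
    nlinarith [(by positivity : 0 < 180 * B ^ 2 * ((k : ℝ) + 2) ^ 5)]
  have hkk : (k : ℝ) + 2 ≤ 16 / 15 * k := by linarith
  have hD1 : 1 / (15 * (B * k)) ≤ D := by
    rw [hD, div_le_div_iff₀ (by positivity) (by positivity)]
    calc 1 * (3 * (B * ((k : ℝ) + 2) ^ 3)) ≤ 1 * (3 * (B * (16 / 15 * k) ^ 3)) := by gcongr
      _ ≤ (k / 2 : ℝ) ^ 2 * (15 * (B * k)) := by
        have : 0 ≤ B * (k : ℝ) ^ 3 := by positivity
        linarith
  have hP : 18 / M * damp (A U.card) (L.sq2 U) ≤ 1 / (60 * (B * k)) := by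
    refine (mul_le_mul_of_nonneg_left hdU (by positivity)).trans ?_
    calc 18 / M * (180 * B ^ 2 * ((k : ℝ) + 2) ^ 5)
        ≤ 18 / M * (180 * B ^ 2 * (16 / 15 * k) ^ 5) := by gcongr
      _ = 18 * 180 * (16 / 15) ^ 5 / 300000 * (1 / (B * k)) := by rw [hMdef]; field_simp
      _ ≤ 1 / 60 * (1 / (B * k)) :=
          mul_le_mul_of_nonneg_right (by norm_num) (by positivity)
      _ = 1 / (60 * (B * k)) := by field_simp
  have hhalf : D / 2 ≤ D * (1 - H U) := by
    have := mul_le_mul_of_nonneg_left hHU hD0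
    linarith
  have hmain : 1 / (60 * (B * k)) ≤ (6 * M + 3) * L.ex (fun V => (V.card : ℝ)) U := by
    have e : 1 / (15 * (B * k)) = 4 * (1 / (60 * (B * k))) := by field_simp; ring
    simp only [Ψ] at main
    linarith
  have hX : 0 ≤ L.ex (fun V => (V.card : ℝ)) U := by
    rw [← ex_const (L := L) 0 U]; exact ex_mono fun V _ => by positivity
  rw [div_le_iff₀ (by positivity)] at hmain
  have h3 : 1 ≤ (B * (k : ℝ) ^ 2) ^ 3 := one_le_pow₀ hu
  have hM3 : (6 * M + 3) * 60 ≤ 200000000 * (B * (k : ℝ) ^ 2) ^ 3 := by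
    rw [hMdef]; linarith [(by ring : (B * (k : ℝ) ^ 2) ^ 3 = B ^ 3 * (k : ℝ) ^ 6)]
  calc (k : ℝ) = 1 * k := (one_mul _).symm
    _ ≤ (6 * M + 3) * L.ex (fun V => (V.card : ℝ)) U * (60 * (B * k)) * k := by gcongr
    _ = (6 * M + 3) * 60 * (B * (k : ℝ) ^ 2) * L.ex (fun V => (V.card : ℝ)) U := by ring
    _ ≤ _ := by
      refine mul_le_mul_of_nonneg_right ?_ hX
      nlinarith

end LH

end P046
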