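import Vale.Agent.P046.Upper

/-!
P046: consequences of `Yf ≤ 10⁻⁸` and the choice of the stopping level for the lower bound.
-/

namespace P046

open Finset

namespace LH

variable {α : Type} [DecidableEq α] {L : LH α} {D N : ℝ} {W : Finset α}

theorem abs_muu_le (hY : L.Yf D N W ≤ 1 / 100000000) : |L.muu D N W| ≤ 1 / 10000 := by
  have : 0 ≤ L.Psum D N W / W.card :=
    div_nonneg (Finset.sum_nonneg fun a _ => psi_nonneg _) (Nat.cast_nonneg _)
  refine abs_le_of_sq_le_sq ?_ (by norm_num)
  rw [Yf] at hY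
  norm_num
  linarith [sq_nonneg (L.muu D N W)]

theorem good_tris_le (hu : 0 < uu D N W) (hE : 0 < (W.card : ℝ))
    (hY : L.Yf D N W ≤ 1 / 100000000) :
    ((L.tris W).card : ℝ) ≤ (W.card : ℝ) * uu D N W / 2 := by
  have h := abs_le.1 (abs_muu_le hY)
  have e : ((L.tris W).card : ℝ) = W.card * uu D N W * (1 + L.muu D N W) / 3 := by
    rw [muu]; field_simp; ring
  rw [e]
  have := mul_pos hE hu
  nlinarith

theorem good_tris_pos
    (hY : L.Yf D N W ≤ 1 / 100000000) : L.tris W ≠ ∅ := by
  intro h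
  have h' := abs_le.1 (abs_muu_le hY)
  have : L.muu D N W = -1 := by simp [muu, h]
  rw [this] at h'
  norm_num at h'

theorem good_two_le_deg (hu : 4 ≤ uu D N W) (hY : L.Yf D N W ≤ 1 / 100000000) :
    (W.card : ℝ) / 2 ≤ ((W.filter fun a => 2 ≤ L.deg W a).card : ℝ) := by
  rcases W.eq_empty_or_nonempty with rfl | hW
  · simp
  have hE : (0 : ℝ) < W.card := by exact_mod_cast Finset.card_pos.2 hW
  have hP : L.Psum D N W ≤ W.card / 100000000 := by
    have : L.Psum D N W / W.card ≤ 1 / 100000000 :=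
      le_trans (le_add_of_nonneg_right (by positivity)) hY
    rw [div_le_iff₀ hE] at this
    linarith
  have h1 : ∑ _a ∈ W.filter (fun a => ¬ 2 ≤ L.deg W a), (1 / 40 : ℝ) ≤ L.Psum D N W := by
    refine le_trans (Finset.sum_le_sum fun a ha => ?_)
      (Finset.sum_le_sum_of_subset_of_nonneg (Finset.filter_subset _ _) fun a _ _ => psi_nonneg _)
    rw [Finset.mem_filter, not_le] at ha
    have : (L.deg W a : ℝ) ≤ 1 := by exact_mod_cast Nat.lt_succ_iff.1 ha.2
    have hd : L.dd D N W a ≤ -(3/4) := by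
      have : (L.deg W a : ℝ) / uu D N W ≤ 1 / 4 :=
        div_le_div₀ (by norm_num) this (by norm_num) hu
      rw [dd]; linarith
    have h2 := psi_low_ge (by linarith : L.dd D N W a ≤ -(1/20))
    rw [abs_of_neg (by linarith)] at h2
    linarith
  rw [Finset.sum_const, nsmul_eq_mul] at h1
  have h3 := Finset.card_filter_add_card_filter_not (s := W) (fun a => 2 ≤ L.deg W a)
  have h4 : ((W.filter fun a => 2 ≤ L.deg W a).card : ℝ)
      + ((W.filter fun a => ¬ 2 ≤ L.deg W a).card : ℝ) = W.card := by exact_mod_cast h3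
  linarith

/-- The stopping level for the lower bound. -/
noncomputable def level (D N : ℝ) : ℝ := 4000000 * (N * Real.sqrt (Real.log D / D))

theorem level_spec (hD : 3 ≤ D) (hDN : D ≤ N) :
    1000 * N / Real.sqrt D ≤ level D N ∧ 6 ≤ level D N := by
  have hl : 1 ≤ Real.log D := by
    rw [Real.le_log_iff_exp_le (by linarith)]
    exact le_trans Real.exp_one_lt_d9.le (by linarith)
  have hsl : 1 ≤ Real.sqrt (Real.log D) := Real.one_le_sqrt.2 hl
  have hsD : 0 < Real.sqrt D := Real.sqrt_pos.2 (by linarith)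
  have hN : 0 < N := by linarith
  have h1 : 1 ≤ N / Real.sqrt D := by
    rw [le_div_iff₀ hsD, one_mul]
    exact le_trans (Real.sqrt_le_iff.2 ⟨by linarith, by nlinarith⟩) hDN
  have e : level D N = 4000000 * (N / Real.sqrt D) * Real.sqrt (Real.log D) := by
    rw [level, Real.sqrt_div (by linarith)]; ring
  have h2 : 4000000 * (N / Real.sqrt D) ≤ level D N := by
    rw [e]; exact le_mul_of_one_le_right (by positivity) hsl
  constructor
  · rw [mul_div_assoc]; linarith
  · linarith

theorem sup_init_small {U : Finset α} (hD : 3 ≤ D) (hDN : D ≤ N) (hN : (U.card : ℝ) = N)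
    (hreg : ∀ a ∈ U, (L.deg U a : ℝ) = D) (hle : level D N ≤ N) :
    L.sup D N (level D N) U ≤ 1 / 4 := by
  obtain ⟨h1, h6⟩ := level_spec hD hDN
  have hD0 : 0 < D := by linarith
  have hN0 : 0 < N := by linarith
  have hl : 0 < Real.log D := Real.log_pos (by linarith)
  refine (sup_init_le hD0 hN hreg h6 hle).trans ?_
  have e : N ^ 2 / (D * level D N ^ 2) = 1 / (16000000000000 * Real.log D) := by
    rw [level, mul_pow, mul_pow, Real.sq_sqrt (by positivity)]
    field_simp
    norm_num
  have h7 : Real.log (2 * N / level D N) ≤ Real.log D := by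
    refine Real.log_le_log (by positivity) ?_
    rw [div_le_iff₀ (by linarith)]
    have hsD : 0 < Real.sqrt D := Real.sqrt_pos.2 hD0
    have hsD' : Real.sqrt D ≤ D := Real.sqrt_le_iff.2 ⟨hD0.le, by nlinarith⟩
    calc 2 * N ≤ D * (1000 * N / Real.sqrt D) := by
          rw [mul_div_assoc', le_div_iff₀ hsD]
          nlinarith [mul_le_mul_of_nonneg_left hsD' hN0.le]
      _ ≤ D * level D N := mul_le_mul_of_nonneg_left h1 hD0.le
  rw [e]
  calc 3000000000000 * (1 / (16000000000000 * Real.log D)) * Real.log (2 * N / level D N)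
      ≤ 3000000000000 * (1 / (16000000000000 * Real.log D)) * Real.log D :=
        mul_le_mul_of_nonneg_left h7 (by positivity)
    _ ≤ 1 / 4 := by field_simp; norm_num

end LH

end P046
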