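import Vale.Agent.P046.Finish

/-!
P046: the triangles of the complete graph as a linear 3-uniform hypergraph on its edges.
-/

namespace P046

open Finset

variable (n : ℕ)

theorem pairs_sup {t : Finset (Fin n)} (ht : t.card = 3) {a b : Finset (Fin n)}
    (ha : a ∈ t.powersetCard 2) (hb : b ∈ t.powersetCard 2) (hab : a ≠ b) : a ∪ b = t := by
  rw [Finset.mem_powersetCard] at ha hb
  refine Finset.eq_of_subset_of_card_le (Finset.union_subset ha.1 hb.1) ?_
  have h1 : ¬ b ⊆ a := fun h => hab (Finset.eq_of_subset_of_card_le h (by omega)).symm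
  have h2 : a.card < (a ∪ b).card :=
    Finset.card_lt_card ⟨Finset.subset_union_left,
      fun h => h1 (Finset.subset_union_right.trans h)⟩
  omega

theorem pairs_inj {t t' : Finset (Fin n)} (ht : t.card = 3) (ht' : t'.card = 3)
    (h : t.powersetCard 2 = t'.powersetCard 2) : t = t' := by
  have hc : (t.powersetCard 2).card = 3 := by rw [Finset.card_powersetCard, ht]; rfl
  obtain ⟨a, ha, b, hb, hab⟩ := Finset.one_lt_card.1 (by omega : 1 < (t.powersetCard 2).card)
  rw [← pairs_sup n ht ha hb hab, ← pairs_sup n ht' (h ▸ ha) (h ▸ hb) hab]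

/-- The triangles of the complete graph. -/
noncomputable def kn : LH (Finset (Fin n)) where
  H := (Finset.univ.powersetCard 3).image fun t => t.powersetCard 2
  card3 := by
    intro s hs
    obtain ⟨t, ht, rfl⟩ := Finset.mem_image.1 hs
    rw [Finset.card_powersetCard, (Finset.mem_powersetCard.1 ht).2]; rfl
  linear := by
    intro s hs s' hs' a ha b hb ha' hb' hab
    obtain ⟨t, ht, rfl⟩ := Finset.mem_image.1 hs
    obtain ⟨t', ht', rfl⟩ := Finset.mem_image.1 hs'
    rw [← pairs_sup n (Finset.mem_powersetCard.1 ht).2 ha hb hab,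
      ← pairs_sup n (Finset.mem_powersetCard.1 ht').2 ha' hb' hab]

variable {n}

theorem kn_tris (W : Finset (Finset (Fin n))) :
    (kn n).tris W = ((Finset.univ.powersetCard 3).filter
      fun t => ∀ e ∈ t.powersetCard 2, e ∈ W).image fun t => t.powersetCard 2 := by
  ext s
  simp only [LH.mem_tris, kn, Finset.mem_image, Finset.mem_filter]
  constructor
  · rintro ⟨⟨t, ht, rfl⟩, hs⟩
    exact ⟨t, ⟨ht, hs⟩, rfl⟩
  · rintro ⟨t, ⟨ht, hs⟩, rfl⟩
    exact ⟨⟨t, ht, rfl⟩, hs⟩

theorem kn_deg (n : ℕ) {a : Finset (Fin n)} (ha : a ∈ Finset.univ.powersetCard 2) :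
    (kn n).deg (Finset.univ.powersetCard 2) a = n - 2 := by
  have ha2 := (Finset.mem_powersetCard.1 ha).2
  have key : ((kn n).tris (Finset.univ.powersetCard 2)).filter (a ∈ ·)
      = ((Finset.univ \ a).image fun v => (insert v a).powersetCard 2) := by
    ext s
    simp only [kn_tris, Finset.mem_filter, Finset.mem_image, Finset.mem_sdiff, Finset.mem_univ,
      true_and]
    constructor
    · rintro ⟨⟨t, ⟨ht, -⟩, rfl⟩, hat⟩
      obtain ⟨hsub, -⟩ := Finset.mem_powersetCard.1 hat
      have ht3 := (Finset.mem_powersetCard.1 ht).2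
      obtain ⟨v, hv⟩ := Finset.card_eq_one.1 (by
        rw [Finset.card_sdiff_of_subset hsub]; omega : (t \ a).card = 1)
      have hva : v ∈ t ∧ v ∉ a := Finset.mem_sdiff.1 (hv ▸ Finset.mem_singleton_self v)
      refine ⟨v, hva.2, ?_⟩
      rw [Finset.eq_of_subset_of_card_le (Finset.insert_subset hva.1 hsub)
        (by rw [Finset.card_insert_of_notMem hva.2]; omega)]
    · rintro ⟨v, hv, rfl⟩
      refine ⟨⟨insert v a, ⟨?_, fun e he => ?_⟩, rfl⟩, ?_⟩
      · rw [Finset.mem_powersetCard, Finset.card_insert_of_notMem hv, ha2]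
        exact ⟨Finset.subset_univ _, rfl⟩
      · rw [Finset.mem_powersetCard] at he ⊢
        exact ⟨Finset.subset_univ _, he.2⟩
      · rw [Finset.mem_powersetCard]; exact ⟨Finset.subset_insert _ _, ha2⟩
  rw [LH.deg, key, Finset.card_image_of_injOn, Finset.card_sdiff_of_subset (Finset.subset_univ _),
    ha2, Finset.card_univ, Fintype.card_fin]
  intro v hv w hw h
  simp only [Finset.coe_sdiff, Set.mem_sdiff, Finset.mem_coe] at hv hw
  have := pairs_inj n (by rw [Finset.card_insert_of_notMem hv.2, ha2])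
    (by rw [Finset.card_insert_of_notMem hw.2, ha2]) h
  exact (Finset.mem_insert.1 (this ▸ Finset.mem_insert_self v a)).resolve_right hv.2

theorem kn_cross (n : ℕ) : (kn n).Cross := by
  intro s hs s' hs' hd
  obtain ⟨t, ht, rfl⟩ := Finset.mem_image.1 hs
  obtain ⟨t', ht', rfl⟩ := Finset.mem_image.1 hs'
  have ht3 := (Finset.mem_powersetCard.1 ht).2
  have h1 : (t ∩ t').card ≤ 1 := by
    by_contra hc
    obtain ⟨u, hu, hu2⟩ := Finset.exists_subset_card_eq (s := t ∩ t') (by omega : 2 ≤ (t ∩ t').card)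
    exact Finset.disjoint_left.1 hd
      (Finset.mem_powersetCard.2 ⟨hu.trans Finset.inter_subset_left, hu2⟩)
      (Finset.mem_powersetCard.2 ⟨hu.trans Finset.inter_subset_right, hu2⟩)
  obtain ⟨a, ha, ha2⟩ := Finset.exists_subset_card_eq (s := t \ t') (n := 2) (by
    have := Finset.card_sdiff_add_card_inter t t'
    omega)
  have hat : a ∈ t.powersetCard 2 :=
    Finset.mem_powersetCard.2 ⟨ha.trans Finset.sdiff_subset, ha2⟩
  refine ⟨a, hat, fun r hr har _ => ?_⟩
  obtain ⟨w, hw, rfl⟩ := Finset.mem_image.1 hr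
  rw [Finset.disjoint_left]
  intro e he he'
  have hw3 := (Finset.mem_powersetCard.1 hw).2
  have hd2 : Disjoint a e := by
    rw [Finset.disjoint_left]
    intro x hx hxe
    exact (Finset.mem_sdiff.1 (ha hx)).2 ((Finset.mem_powersetCard.1 he').1 hxe)
  have := Finset.card_le_card (Finset.union_subset (Finset.mem_powersetCard.1 har).1
    (Finset.mem_powersetCard.1 he).1)
  rw [Finset.card_union_of_disjoint hd2, ha2, (Finset.mem_powersetCard.1 he).2, hw3] at this
  omega

end P046
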