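import Vale.Agent.P046.Good
import Vale.Agent.P046.Second

/-!
P046: the lower bound `N √(log D / D) / (log D)⁴` for the expected number of remaining nodes of a
`D`-regular linear 3-uniform hypergraph with the property `Cross`.
-/

namespace P046

open Finset

namespace LH

variable {α : Type} [DecidableEq α] {L : LH α} {D N : ℝ}

/-- Lower bound for the mean. -/
theorem lower_mean {U : Finset α} (hD : 3 ≤ D) (hDN : D ≤ N) (hN : (U.card : ℝ) = N)
    (hreg : ∀ a ∈ U, (L.deg U a : ℝ) = D) (hx : L.Cross) (hle : 3 * level D N ≤ N) :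
    N * Real.sqrt (Real.log D / D)
      ≤ 10 ^ 56 * Real.log D ^ 4 * L.ex (fun W => (W.card : ℝ)) U := by
  obtain ⟨h1, h6⟩ := level_spec hD hDN
  have hD0 : 0 < D := by linarith
  have hN0 : 0 < N := by linarith
  have hl : 1 ≤ Real.log D := by
    rw [Real.le_log_iff_exp_le hD0]
    exact le_trans Real.exp_one_lt_d9.le (by linarith)
  have hX : 0 ≤ L.ex (fun W => (W.card : ℝ)) U := by
    rw [← ex_const (L := L) 0 U]; exact ex_mono fun V _ => by positivity
  set E1 := level D N with hE1def
  have esq : E1 ^ 2 = 16000000000000 * N ^ 2 * Real.log D / D := by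
    rw [hE1def, level, mul_pow, mul_pow, Real.sq_sqrt (by positivity)]
    ring
  have hE30 : 30 ≤ E1 := by
    have hsD : 0 < Real.sqrt D := Real.sqrt_pos.2 hD0
    refine le_trans ?_ h1
    rw [le_div_iff₀ hsD]
    have : Real.sqrt D ≤ D := Real.sqrt_le_iff.2 ⟨hD0.le, by nlinarith⟩
    linarith
  set k := ⌈E1⌉₊ with hkdef
  have hk1 : E1 ≤ k := Nat.le_ceil _
  have hk2 : (k : ℝ) ≤ E1 + 1 := (Nat.ceil_lt_add_one (by linarith)).le
  have hcard : ∀ {W : Finset α}, k ≤ W.card → E1 ≤ (W.card : ℝ) := fun h =>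
    hk1.trans (by exact_mod_cast h)
  have huW : ∀ {W : Finset α}, k ≤ W.card → 16000000000000 * Real.log D ≤ uu D N W := by
    intro W h
    have := pow_le_pow_left₀ (by linarith) (hcard h) 2
    rw [esq] at this
    calc 16000000000000 * Real.log D
        = D / N ^ 2 * (16000000000000 * N ^ 2 * Real.log D / D) := by field_simp
      _ ≤ D / N ^ 2 * (W.card : ℝ) ^ 2 := mul_le_mul_of_nonneg_left this (by positivity)
      _ = uu D N W := by rw [uu]; ring
  have hB : 16000000000000 * Real.log D / 2 ≤ D / (2 * N ^ 2) * (k : ℝ) ^ 2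
      ∧ D / (2 * N ^ 2) * (k : ℝ) ^ 2 ≤ 32000000000000 * Real.log D := by
    have hlo := pow_le_pow_left₀ (by linarith) hk1 2
    have hhi := pow_le_pow_left₀ (by positivity) (hk2.trans (by linarith : E1 + 1 ≤ 2 * E1)) 2
    rw [mul_pow] at hhi
    rw [esq] at hlo hhi
    constructor
    · refine le_trans (le_of_eq ?_) (mul_le_mul_of_nonneg_left hlo (by positivity))
      field_simp
    · refine le_trans (mul_le_mul_of_nonneg_left hhi (by positivity)) (le_of_eq ?_)
      field_simp
      ring
  have key := lower_of_stop (L := L) hx (U := U)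
    (Good := fun W => L.Yf D N W ≤ 1 / 100000000) (H := L.sup D N E1)
    (B := D / (2 * N ^ 2)) (k := k) (by positivity)
    (by exact_mod_cast (show (30 : ℝ) ≤ k by linarith))
    (by exact_mod_cast (show 2 * ((k : ℝ) + 2) ≤ U.card by rw [hN]; linarith))
    (by linarith [hB.1])
    (fun W _ => sup_nonneg hD0.le E1 W)
    (le_trans (sup_init_small hD hDN hN hreg (by linarith)) (by norm_num))
    (fun W _ hW hg => one_le_sup hD0.le h6 (hcard hW) (not_le.1 hg))
    (fun W hW hk hg => by
      refine (avg_sup_le hD0 hN0 hDN ?_ h1 h6 ?_ hg).2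
      · exact hN ▸ by exact_mod_cast Finset.card_le_card hW
      · have : (k : ℝ) + 3 ≤ W.card := by exact_mod_cast hk
        linarith)
    (fun W _ _ hg => good_tris_pos hg)
    (fun W _ hk hg => by
      refine (good_tris_le ?_ ?_ hg).trans (le_of_eq ?_)
      · linarith [huW hk]
      · linarith [hcard hk]
      · rw [uu]; field_simp)
    (fun W _ hk _ hg => good_two_le_deg (by linarith [huW hk]) hg)
  have h4 := pow_le_pow_left₀ (by positivity) hB.2 4
  rw [mul_pow (32000000000000 : ℝ)] at h4
  have e : E1 = 4000000 * (N * Real.sqrt (Real.log D / D)) := hE1def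
  have h5 : (k : ℝ) ≤ 200000000 * (32000000000000 ^ 4 * Real.log D ^ 4)
      * L.ex (fun W => (W.card : ℝ)) U :=
    key.trans (mul_le_mul_of_nonneg_right (mul_le_mul_of_nonneg_left h4 (by norm_num)) hX)
  have h7 : 0 ≤ Real.log D ^ 4 * L.ex (fun W => (W.card : ℝ)) U := by positivity
  norm_num at h5 ⊢
  linarith

end LH

end P046
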