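import Vale.Agent.P046.KnUpper
import Vale.Agent.P046.Lower

/-!
P046: the lower bound specialised to the complete graph.
-/

namespace P046

open Finset Filter

theorem kn_lower : ∀ᶠ n : ℕ in atTop,
    (1 / 10 ^ 58 : ℝ) * ((n : ℝ) ^ (3/2 : ℝ) / Real.log n ^ (7/2 : ℝ))
      ≤ (kn n).ex (fun W => (W.card : ℝ)) (Finset.univ.powersetCard 2) := by
  have h := Real.isLittleO_log_id_atTop.bound (by norm_num : (0:ℝ) < 1 / 12000000 ^ 2)
  have h2 : Tendsto (fun n : ℕ => (n : ℝ) - 2) atTop atTop :=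
    tendsto_atTop_add_const_right _ _ tendsto_natCast_atTop_atTop
  filter_upwards [h2.eventually h, eventually_ge_atTop 5] with n hn hn5
  obtain ⟨hD, hDN, hreg⟩ := kn_hyp hn5
  have h5 : (5 : ℝ) ≤ n := by exact_mod_cast hn5
  have hl : 0 < Real.log ((n : ℝ) - 2) := Real.log_pos (by linarith)
  simp only [Real.norm_eq_abs, id] at hn
  rw [abs_of_pos hl, abs_of_nonneg (by linarith)] at hn
  have hs : Real.sqrt (Real.log ((n : ℝ) - 2) / ((n : ℝ) - 2)) ≤ 1 / 12000000 := by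
    rw [Real.sqrt_le_left (by norm_num), div_le_iff₀ (by linarith)]
    norm_num at hn ⊢
    linarith
  have hN : 0 ≤ (n : ℝ) * (n - 1) / 2 := by nlinarith
  have hle : 3 * LH.level ((n : ℝ) - 2) ((n : ℝ) * (n - 1) / 2) ≤ (n : ℝ) * (n - 1) / 2 := by
    rw [LH.level]; nlinarith [mul_le_mul_of_nonneg_left hs hN]
  have key := LH.lower_mean hD hDN (kn_card n) hreg (kn_cross n) hle
  set X := (kn n).ex (fun W => (W.card : ℝ)) (Finset.univ.powersetCard 2)
  have hln : 0 < Real.log n := Real.log_pos (by linarith)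
  have hl1 : Real.log ((n : ℝ) - 2) ≤ Real.log n := Real.log_le_log (by linarith) (by linarith)
  have hl2 : Real.log n / 4 ≤ Real.log ((n : ℝ) - 2) := by
    have := Real.log_le_log (by linarith) (show (n : ℝ) ≤ ((n : ℝ) - 2) ^ 2 by nlinarith)
    rw [Real.log_pow] at this
    push_cast at this
    linarith
  have hsn : 0 < Real.sqrt (n : ℝ) := Real.sqrt_pos.2 (by linarith)
  -- the scale from below
  have h1 : (n : ℝ) ^ (3/2 : ℝ) * Real.sqrt (Real.log n) / 8
      ≤ (n : ℝ) * (n - 1) / 2 * Real.sqrt (Real.log ((n : ℝ) - 2) / ((n : ℝ) - 2)) := by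
    have h3 : Real.sqrt (Real.log n) / (2 * Real.sqrt n)
        ≤ Real.sqrt (Real.log ((n : ℝ) - 2) / ((n : ℝ) - 2)) := by
      calc Real.sqrt (Real.log n) / (2 * Real.sqrt n)
          = Real.sqrt (Real.log n / 4 / n) := by
            rw [Real.sqrt_div (by positivity), Real.sqrt_div hln.le, show (4 : ℝ) = 2 ^ 2 by norm_num,
              Real.sqrt_sq (by norm_num), div_div]
        _ ≤ _ := by
            refine Real.sqrt_le_sqrt ?_
            exact div_le_div₀ hl.le hl2 (by linarith) (by linarith)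
    calc (n : ℝ) ^ (3/2 : ℝ) * Real.sqrt (Real.log n) / 8
        = (n : ℝ) * ((n : ℝ) / Real.sqrt n) * Real.sqrt (Real.log n) / 8 := by
          rw [Real.div_sqrt, rpow_three_halves (by linarith)]
      _ = (n : ℝ) * n / 4 * (Real.sqrt (Real.log n) / (2 * Real.sqrt n)) := by ring
      _ ≤ _ := mul_le_mul (by nlinarith) h3 (by positivity) hN
  have hX : 0 ≤ X := by
    by_contra hc
    have : 10 ^ 56 * Real.log ((n : ℝ) - 2) ^ 4 * X < 0 :=
      mul_neg_of_pos_of_neg (by positivity) (not_le.1 hc)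
    have : 0 ≤ (n : ℝ) * (n - 1) / 2 * Real.sqrt (Real.log ((n : ℝ) - 2) / ((n : ℝ) - 2)) := by
      positivity
    linarith
  have h4 : 10 ^ 56 * Real.log ((n : ℝ) - 2) ^ 4 * X ≤ 10 ^ 56 * Real.log n ^ 4 * X := by
    gcongr
  have e : Real.log n ^ (7/2 : ℝ) * Real.sqrt (Real.log n) = Real.log n ^ 4 := by
    rw [Real.sqrt_eq_rpow, ← Real.rpow_add hln]
    norm_num
  have hp : 0 < Real.log n ^ (7/2 : ℝ) := Real.rpow_pos_of_pos hln _
  have hr : 0 < Real.sqrt (Real.log n) := Real.sqrt_pos.2 hln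
  have h6 : (n : ℝ) ^ (3/2 : ℝ) * Real.sqrt (Real.log n)
      ≤ 8 * 10 ^ 56 * X * Real.log n ^ (7/2 : ℝ) * Real.sqrt (Real.log n) := by
    rw [mul_assoc _ _ (Real.sqrt (Real.log n)), e]
    linarith
  have h7 := le_of_mul_le_mul_right h6 hr
  rw [← mul_div_assoc, div_le_iff₀ hp]
  have : 0 ≤ X * Real.log n ^ (7/2 : ℝ) := mul_nonneg hX hp.le
  norm_num at h7 ⊢
  linarith

end P046
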