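import Vale.Agent.P046.Good
import Vale.Agent.P046.Graph

/-!
P046: the general bounds specialised to the complete graph.
-/

namespace P046

open Finset Filter

theorem kn_card (n : ℕ) :
    (((Finset.univ : Finset (Fin n)).powersetCard 2).card : ℝ) = (n : ℝ) * (n - 1) / 2 := by
  rw [Finset.card_powersetCard, Finset.card_univ, Fintype.card_fin, Nat.cast_choose_two]

theorem rpow_three_halves {x : ℝ} (hx : 0 ≤ x) : x ^ (3/2 : ℝ) = x * Real.sqrt x := by
  rw [Real.sqrt_eq_rpow, show (3/2 : ℝ) = 1 + 1/2 by norm_num,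
    Real.rpow_add' hx (by norm_num), Real.rpow_one]

theorem scale_le {n : ℕ} (hn : 5 ≤ n) :
    (n : ℝ) * (n - 1) / 2 * Real.sqrt (Real.log ((n : ℝ) - 2) / ((n : ℝ) - 2))
      ≤ (n : ℝ) ^ (3/2 : ℝ) * Real.sqrt (Real.log n) := by
  have h5 : (5 : ℝ) ≤ n := by exact_mod_cast hn
  have hl : Real.log ((n : ℝ) - 2) ≤ Real.log n := Real.log_le_log (by linarith) (by linarith)
  have hl0 : 0 ≤ Real.log n := Real.log_nonneg (by linarith)
  have h1 : Real.sqrt (Real.log ((n : ℝ) - 2) / ((n : ℝ) - 2))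
      ≤ 2 * (Real.sqrt (Real.log n) / Real.sqrt n) := by
    calc Real.sqrt (Real.log ((n : ℝ) - 2) / ((n : ℝ) - 2))
        ≤ Real.sqrt (4 * (Real.log n / n)) := by
          refine Real.sqrt_le_sqrt ?_
          rw [← mul_div_assoc, div_le_div_iff₀ (by linarith) (by linarith)]
          calc Real.log ((n : ℝ) - 2) * n ≤ Real.log n * n :=
                mul_le_mul_of_nonneg_right hl (by linarith)
            _ ≤ Real.log n * (4 * ((n : ℝ) - 2)) := mul_le_mul_of_nonneg_left (by linarith) hl0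
            _ = _ := by ring
      _ = 2 * (Real.sqrt (Real.log n) / Real.sqrt n) := by
          rw [Real.sqrt_mul (by norm_num), Real.sqrt_div hl0,
            show (4 : ℝ) = 2 ^ 2 by norm_num, Real.sqrt_sq (by norm_num)]
  have hsn : 0 < Real.sqrt (n : ℝ) := Real.sqrt_pos.2 (by linarith)
  calc (n : ℝ) * (n - 1) / 2 * Real.sqrt (Real.log ((n : ℝ) - 2) / ((n : ℝ) - 2))
      ≤ (n : ℝ) * n / 2 * (2 * (Real.sqrt (Real.log n) / Real.sqrt n)) := by
        gcongr
        linarith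
    _ = (n : ℝ) * ((n : ℝ) / Real.sqrt n) * Real.sqrt (Real.log n) := by ring
    _ = (n : ℝ) ^ (3/2 : ℝ) * Real.sqrt (Real.log n) := by
        rw [Real.div_sqrt, rpow_three_halves (by linarith)]

/-- The hypotheses of the general theorems. -/
theorem kn_hyp {n : ℕ} (hn : 5 ≤ n) :
    (3 : ℝ) ≤ (n : ℝ) - 2 ∧ (n : ℝ) - 2 ≤ (n : ℝ) * (n - 1) / 2 ∧
      ∀ a ∈ (Finset.univ : Finset (Fin n)).powersetCard 2,
        ((kn n).deg (Finset.univ.powersetCard 2) a : ℝ) = (n : ℝ) - 2 := by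
  have h5 : (5 : ℝ) ≤ n := by exact_mod_cast hn
  refine ⟨by linarith, by nlinarith, fun a ha => ?_⟩
  rw [kn_deg n ha, Nat.cast_sub (by omega)]
  norm_num

theorem kn_tail {n : ℕ} (hn : 5 ≤ n) {K : ℝ} (hK : 0 < K) :
    (kn n).ex (fun W => if K * ((n : ℝ) ^ (3/2 : ℝ) * Real.sqrt (Real.log n)) < (W.card : ℝ)
      then 1 else 0) (Finset.univ.powersetCard 2) ≤ 3000000000000 / K ^ 2 := by
  obtain ⟨hD, hDN, hreg⟩ := kn_hyp hn
  refine le_trans (LH.ex_mono fun W _ => ?_) (LH.tail hD hDN (kn_card n) hreg hK)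
  have := mul_le_mul_of_nonneg_left (scale_le hn) hK.le
  split_ifs <;> linarith

theorem kn_mean {n : ℕ} (hn : 5 ≤ n) :
    (kn n).ex (fun W => (W.card : ℝ)) (Finset.univ.powersetCard 2)
      ≤ 7000000000000 * ((n : ℝ) ^ (3/2 : ℝ) * Real.sqrt (Real.log n)) := by
  obtain ⟨hD, hDN, hreg⟩ := kn_hyp hn
  exact (LH.mean_le hD hDN (kn_card n) hreg).trans
    (mul_le_mul_of_nonneg_left (scale_le hn) (by norm_num))

/-- Eventually the stopping level lies below the number of edges. -/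
theorem kn_level : ∀ᶠ n : ℕ in atTop,
    LH.level ((n : ℝ) - 2) ((n : ℝ) * (n - 1) / 2) ≤ (n : ℝ) * (n - 1) / 2 := by
  have h := Real.isLittleO_log_id_atTop.bound (by norm_num : (0:ℝ) < 1 / 4000000 ^ 2)
  have h2 : Tendsto (fun n : ℕ => (n : ℝ) - 2) atTop atTop :=
    tendsto_atTop_add_const_right _ _ tendsto_natCast_atTop_atTop
  filter_upwards [h2.eventually h, eventually_ge_atTop 5] with n hn hn5
  have h5 : (5 : ℝ) ≤ n := by exact_mod_cast hn5
  have hl : 0 ≤ Real.log ((n : ℝ) - 2) := Real.log_nonneg (by linarith)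
  simp only [Real.norm_eq_abs, id] at hn
  rw [abs_of_nonneg hl, abs_of_nonneg (by linarith)] at hn
  have hs : Real.sqrt (Real.log ((n : ℝ) - 2) / ((n : ℝ) - 2)) ≤ 1 / 4000000 := by
    rw [Real.sqrt_le_left (by norm_num), div_le_iff₀ (by linarith)]
    norm_num at hn ⊢
    linarith
  have hN : 0 ≤ (n : ℝ) * (n - 1) / 2 := by nlinarith
  rw [LH.level]
  nlinarith [mul_le_mul_of_nonneg_left hs hN]

end P046
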