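import Mathlib

/-!
P046: random greedy removal in a linear 3-uniform hypergraph.

`LH α` bundles the hypergraph. A state is the set `W` of nodes that are still present; a step deletes
the three nodes of a uniformly chosen edge inside `W`. `ex` is the expectation of a function of the
final state and `exN k` the expectation of a function of the state after `k` steps (stopped when no
edge is left).
-/

namespace P046

open Finset

/-- A linear 3-uniform hypergraph. -/
structure LH (α : Type) [DecidableEq α] where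
  H : Finset (Finset α)
  card3 : ∀ t ∈ H, t.card = 3
  linear : ∀ s ∈ H, ∀ t ∈ H, ∀ a ∈ s, ∀ b ∈ s, a ∈ t → b ∈ t → a ≠ b → s = t

variable {α : Type} [DecidableEq α] (L : LH α)

namespace LH

/-- The edges inside `W`. -/
def tris (W : Finset α) : Finset (Finset α) := L.H.filter (· ⊆ W)

/-- The degree inside `W`. -/
def deg (W : Finset α) (a : α) : ℕ := ((L.tris W).filter (a ∈ ·)).card

variable {L}

theorem mem_tris {W : Finset α} {t : Finset α} : t ∈ L.tris W ↔ t ∈ L.H ∧ t ⊆ W := by
  simp [tris]

theorem card_tri {W t : Finset α} (h : t ∈ L.tris W) : t.card = 3 := L.card3 t (mem_tris.1 h).1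

theorem card_sdiff_tri {W t : Finset α} (h : t ∈ L.tris W) : (W \ t).card + 3 = W.card := by
  rw [Finset.card_sdiff_of_subset (mem_tris.1 h).2, card_tri h]
  have := Finset.card_le_card (mem_tris.1 h).2
  rw [card_tri h] at this
  omega

variable (L)

/-- Expectation of a function of the final state. -/
noncomputable def ex (f : Finset α → ℝ) (W : Finset α) : ℝ :=
  if L.tris W = ∅ then f W
  else (∑ t ∈ (L.tris W).attach, ex f (W \ t.1)) / (L.tris W).card
termination_by W.card
decreasing_by
  have := card_sdiff_tri t.2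
  omega

/-- Expectation of a function of the state after `k` steps. -/
noncomputable def exN : ℕ → (Finset α → ℝ) → Finset α → ℝ
  | 0, f, W => f W
  | k + 1, f, W =>
    if L.tris W = ∅ then f W
    else (∑ t ∈ L.tris W, exN k f (W \ t)) / (L.tris W).card

/-- The average of `f` over one step. -/
noncomputable def avg (f : Finset α → ℝ) (W : Finset α) : ℝ :=
  (∑ t ∈ L.tris W, f (W \ t)) / (L.tris W).card

variable {L}

theorem avg_congr {f g : Finset α → ℝ} {W : Finset α} (h : ∀ t ∈ L.tris W, f (W \ t) = g (W \ t)) :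
    L.avg f W = L.avg g W := by
  rw [avg, avg, Finset.sum_congr rfl h]

theorem avg_mono {f g : Finset α → ℝ} {W : Finset α} (h : ∀ t ∈ L.tris W, f (W \ t) ≤ g (W \ t)) :
    L.avg f W ≤ L.avg g W :=
  div_le_div_of_nonneg_right (Finset.sum_le_sum h) (Nat.cast_nonneg _)

theorem card_pos {W : Finset α} (h : L.tris W ≠ ∅) : (0 : ℝ) < (L.tris W).card := by
  exact_mod_cast Finset.card_pos.2 (Finset.nonempty_iff_ne_empty.2 h)

theorem ex_terminal {f : Finset α → ℝ} {W : Finset α} (h : L.tris W = ∅) : L.ex f W = f W := by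
  rw [ex, if_pos h]

theorem ex_step {f : Finset α → ℝ} {W : Finset α} (h : L.tris W ≠ ∅) :
    L.ex f W = L.avg (L.ex f) W := by
  rw [ex, if_neg h, Finset.sum_attach (L.tris W) (fun t => L.ex f (W \ t)), avg]

theorem ex_induction {P : Finset α → Prop}
    (h : ∀ W, (∀ t ∈ L.tris W, P (W \ t)) → P W) (W : Finset α) : P W := by
  induction hn : W.card using Nat.strong_induction_on generalizing W with
  | _ n ih =>
    refine h W fun t ht => ih _ ?_ _ rfl
    have := card_sdiff_tri ht
    omega

/-- Upper bounds on a subset-closed region of states. -/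
theorem ex_le {f Φ : Finset α → ℝ} {U : Finset α}
    (h : ∀ W, W ⊆ U → (∀ W', W' ⊆ W → f W' ≤ Φ W) ∨ (L.tris W ≠ ∅ ∧ L.avg Φ W ≤ Φ W)) :
    L.ex f U ≤ Φ U := by
  suffices ∀ W, W ⊆ U → L.ex f W ≤ Φ W from this U subset_rfl
  refine fun W => ex_induction (L := L) (P := fun W => W ⊆ U → L.ex f W ≤ Φ W) (fun W ih hW => ?_) W
  rcases h W hW with h' | ⟨h1, h2⟩
  · refine ex_induction (L := L) (P := fun V => V ⊆ W → L.ex f V ≤ Φ W) (fun V ihV hV => ?_) W subset_rfl
    by_cases hV0 : L.tris V = ∅
    · rw [ex_terminal hV0]; exact h' V hV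
    · rw [ex_step hV0, avg, div_le_iff₀ (card_pos hV0)]
      calc ∑ t ∈ L.tris V, L.ex f (V \ t) ≤ ∑ _t ∈ L.tris V, Φ W :=
            Finset.sum_le_sum fun t ht => ihV t ht (Finset.sdiff_subset.trans hV)
        _ = _ := by rw [Finset.sum_const, nsmul_eq_mul, mul_comm]
  · rw [ex_step h1]
    exact le_trans (avg_mono fun t ht => ih t ht (Finset.sdiff_subset.trans hW)) h2

theorem le_ex {f Ψ : Finset α → ℝ} {U : Finset α}
    (h0 : ∀ W, W ⊆ U → L.tris W = ∅ → Ψ W ≤ f W)
    (h : ∀ W, W ⊆ U → L.tris W ≠ ∅ → Ψ W ≤ L.avg Ψ W) : Ψ U ≤ L.ex f U := by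
  refine ex_induction (L := L) (P := fun W => W ⊆ U → Ψ W ≤ L.ex f W) (fun W ih hW => ?_) U subset_rfl
  by_cases h1 : L.tris W = ∅
  · rw [ex_terminal h1]; exact h0 W hW h1
  · rw [ex_step h1]
    exact (h W hW h1).trans (avg_mono fun t ht => ih t ht (Finset.sdiff_subset.trans hW))

theorem ex_mono {f g : Finset α → ℝ} {U : Finset α} (h : ∀ W, W ⊆ U → f W ≤ g W) :
    L.ex f U ≤ L.ex g U := by
  refine ex_induction (L := L) (P := fun W => W ⊆ U → L.ex f W ≤ L.ex g W) (fun W ih hW => ?_) U subset_rfl
  by_cases h1 : L.tris W = ∅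
  · rw [ex_terminal h1, ex_terminal h1]; exact h W hW
  · rw [ex_step h1, ex_step h1]
    exact avg_mono fun t ht => ih t ht (Finset.sdiff_subset.trans hW)

theorem ex_add (f g : Finset α → ℝ) (W : Finset α) :
    L.ex (fun V => f V + g V) W = L.ex f W + L.ex g W := by
  refine ex_induction (L := L) (P := fun W => L.ex (fun V => f V + g V) W = L.ex f W + L.ex g W)
    (fun W ih => ?_) W
  by_cases h1 : L.tris W = ∅
  · rw [ex_terminal h1, ex_terminal h1, ex_terminal h1]
  · simp only [ex_step h1]
    simp only [avg]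
    rw [← add_div, ← Finset.sum_add_distrib, Finset.sum_congr rfl ih]

theorem ex_mul (c : ℝ) (f : Finset α → ℝ) (W : Finset α) :
    L.ex (fun V => c * f V) W = c * L.ex f W := by
  refine ex_induction (L := L) (P := fun W => L.ex (fun V => c * f V) W = c * L.ex f W) (fun W ih => ?_) W
  by_cases h1 : L.tris W = ∅
  · rw [ex_terminal h1, ex_terminal h1]
  · simp only [ex_step h1]
    simp only [avg]
    rw [← mul_div_assoc, Finset.mul_sum, Finset.sum_congr rfl ih]

theorem ex_const (c : ℝ) (W : Finset α) : L.ex (fun _ => c) W = c := by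
  refine ex_induction (L := L) (P := fun W => L.ex (fun _ => c) W = c) (fun W ih => ?_) W
  by_cases h1 : L.tris W = ∅
  · rw [ex_terminal h1]
  · rw [ex_step h1, avg, Finset.sum_congr rfl ih, Finset.sum_const, nsmul_eq_mul,
      mul_div_cancel_left₀ _ (card_pos h1).ne']

theorem exN_succ {f : Finset α → ℝ} {W : Finset α} (k : ℕ) (h : L.tris W ≠ ∅) :
    L.exN (k + 1) f W = L.avg (L.exN k f) W := by
  rw [exN, if_neg h]; rfl

theorem exN_terminal {f : Finset α → ℝ} {W : Finset α} (k : ℕ) (h : L.tris W = ∅) :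
    L.exN k f W = f W := by
  cases k with
  | zero => rfl
  | succ k => rw [exN, if_pos h]

/-- The Markov property. -/
theorem exN_ex (f : Finset α → ℝ) (k : ℕ) (W : Finset α) :
    L.exN k (L.ex f) W = L.ex f W := by
  induction k generalizing W with
  | zero => rfl
  | succ k ih =>
    by_cases h : L.tris W = ∅
    · rw [exN_terminal _ h]
    · rw [exN_succ k h, ex_step h]
      exact avg_congr fun t _ => ih _

theorem exN_mono {f g : Finset α → ℝ} (h : ∀ W, f W ≤ g W) (k : ℕ) (W : Finset α) :
    L.exN k f W ≤ L.exN k g W := by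
  induction k generalizing W with
  | zero => exact h W
  | succ k ih =>
    by_cases h1 : L.tris W = ∅
    · rw [exN_terminal _ h1, exN_terminal _ h1]; exact h W
    · rw [exN_succ k h1, exN_succ k h1]
      exact avg_mono fun t _ => ih _

theorem exN_lin (f g : Finset α → ℝ) (a b : ℝ) (k : ℕ) (W : Finset α) :
    L.exN k (fun V => a * f V + b * g V) W = a * L.exN k f W + b * L.exN k g W := by
  induction k generalizing W with
  | zero => rfl
  | succ k ih =>
    by_cases h1 : L.tris W = ∅
    · simp only [exN_terminal _ h1]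
    · simp only [exN_succ k h1]
      simp only [avg]
      rw [← mul_div_assoc, ← mul_div_assoc, ← add_div, Finset.mul_sum, Finset.mul_sum,
        ← Finset.sum_add_distrib, Finset.sum_congr rfl fun t _ => ih _]

theorem exN_add (i j : ℕ) (f : Finset α → ℝ) (W : Finset α) :
    L.exN (i + j) f W = L.exN i (L.exN j f) W := by
  induction i generalizing W with
  | zero => simp [exN]
  | succ i ih =>
    by_cases h1 : L.tris W = ∅
    · rw [exN_terminal _ h1, exN_terminal _ h1, exN_terminal _ h1]
    · rw [Nat.succ_add, exN_succ _ h1, exN_succ _ h1]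
      exact avg_congr fun t _ => ih _

end LH

end P046
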