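import Mathlib

/-!
P046: the Lyapunov function `psi` (a Huber-type function with curvature `R'(1) = -1`) and the
three-variable inequality behind the drift bound.

`d` is a normalised codegree minus one; `e = cl d` is `d` clamped to `[-1/20, 1/5]`.
-/

namespace P046

/-- Clamp to `[-1/20, 1/5]`. -/
noncomputable def cl (d : ℝ) : ℝ := max (-(1/20)) (min (1/5) d)

/-- The slope polynomial. -/
def gp (e : ℝ) : ℝ := 2 * e - 3 * e ^ 2 - 4 * e ^ 3

/-- The Lyapunov function. -/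
noncomputable def psi (d : ℝ) : ℝ :=
  cl d ^ 2 * (1 - cl d - cl d ^ 2) + gp (cl d) * (d - cl d)

/-- Its derivative. -/
noncomputable def dpsi (d : ℝ) : ℝ := gp (cl d)

/-- The one-variable part of the drift. -/
noncomputable def hh (d : ℝ) : ℝ := -psi d * ((2 + d) / (1 + d)) + dpsi d * d

theorem cl_mem (d : ℝ) : -(1/20) ≤ cl d ∧ cl d ≤ 1/5 := by
  constructor
  · exact le_max_left _ _
  · exact max_le (by norm_num) (min_le_left _ _)

theorem cl_of_mem {d : ℝ} (h : -(1/20) ≤ d) (h' : d ≤ 1/5) : cl d = d := by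
  rw [cl, min_eq_right h', max_eq_right h]

theorem cl_of_le {d : ℝ} (h : d ≤ -(1/20)) : cl d = -(1/20) := by
  rw [cl, min_eq_right (by linarith), max_eq_left h]

theorem cl_of_ge {d : ℝ} (h : 1/5 ≤ d) : cl d = 1/5 := by
  rw [cl, min_eq_left h, max_eq_right (by norm_num)]

theorem gp_mono {x y : ℝ} (hx : -(1/20) ≤ x) (hy : y ≤ 1/5) (hxy : x ≤ y) : gp x ≤ gp y := by
  have h1 : 0 ≤ 2 - 3 * (x + y) - 4 * (x * x + x * y + y * y) := by
    nlinarith [mul_nonneg (sub_nonneg.2 hy) (sub_nonneg.2 (hx.trans hxy)),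
      mul_nonneg (sub_nonneg.2 (hxy.trans hy)) (sub_nonneg.2 hx), sq_nonneg (x - y)]
  have : gp y - gp x = (y - x) * (2 - 3 * (x + y) - 4 * (x * x + x * y + y * y)) := by
    simp only [gp]; ring
  nlinarith [mul_nonneg (sub_nonneg.2 hxy) h1]

theorem dpsi_bounds (d : ℝ) : -(43/400) ≤ dpsi d ∧ dpsi d ≤ 31/125 := by
  have h := cl_mem d
  constructor
  · have := gp_mono le_rfl h.2 h.1
    have e : gp (-(1/20)) = -(107/1000) := by norm_num [gp]
    simp only [dpsi]; linarith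
  · have := gp_mono h.1 le_rfl h.2
    have e : gp (1/5) = 31/125 := by norm_num [gp]
    simp only [dpsi]; linarith

theorem psi_mid {d : ℝ} (h : -(1/20) ≤ d) (h' : d ≤ 1/5) :
    psi d = d ^ 2 * (1 - d - d ^ 2) ∧ dpsi d = gp d := by
  simp [psi, dpsi, cl_of_mem h h']

theorem hh_mid {d : ℝ} (h : -(1/20) ≤ d) (h' : d ≤ 1/5) :
    hh d = -d ^ 4 * ((4 + 3 * d) / (1 + d)) := by
  obtain ⟨e1, e2⟩ := psi_mid h h'
  have : (1 : ℝ) + d ≠ 0 := by linarith
  rw [hh, e1, e2, gp]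
  field_simp
  ring

theorem hh_low {d : ℝ} (h : d ≤ -(1/20)) (h0 : 0 < 1 + d) :
    hh d = 17557/160000 - (16683/160000) / (1 + d) := by
  rw [hh, psi, dpsi, cl_of_le h]
  norm_num [gp]
  field_simp
  ring

theorem hh_high {d : ℝ} (h : 1/5 ≤ d) : hh d = -(143/625) + (167/625) / (1 + d) := by
  have : (1 : ℝ) + d ≠ 0 := by linarith
  rw [hh, psi, dpsi, cl_of_ge h]
  norm_num [gp]
  field_simp
  ring

theorem hh_nonpos {d : ℝ} (h0 : 0 < 1 + d) : hh d ≤ 0 := by
  rcases le_total d (-(1/20)) with h | h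
  · rw [hh_low h h0, sub_nonpos, le_div_iff₀ h0]
    nlinarith
  rcases le_total d (1/5) with h' | h'
  · rw [hh_mid h h', neg_mul]
    refine neg_nonpos.2 (mul_nonneg (by positivity) (div_nonneg (by linarith) h0.le))
  · rw [hh_high h']
    have : (167/625) / (1 + d) ≤ (143/625 : ℝ) := by
      rw [div_le_iff₀ h0]; nlinarith
    linarith

/-- Raising a low variable to `-1/20` does not decrease `hh d - S * d` when `S ≤ 23/200`. -/
theorem raise {d S : ℝ} (h0 : 0 < 1 + d) (h : d ≤ -(1/20)) (hS : S ≤ 23/200) :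
    hh d - S * d ≤ hh (-(1/20)) - S * (-(1/20)) := by
  rw [hh_low h h0, hh_low le_rfl (by norm_num)]
  have key : (16683/160000) / (1 + d) - (16683/160000) / (19/20)
      - S * (-(1/20) - d) = (-(1/20) - d) * ((16683/160000) / ((1 + d) * (19/20)) - S) := by
    field_simp
    ring
  have h2 : 23/200 ≤ (16683/160000) / ((1 + d) * (19/20)) := by
    rw [le_div_iff₀ (by positivity)]
    nlinarith
  have := mul_nonneg (sub_nonneg.2 h) (sub_nonneg.2 (hS.trans h2))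
  norm_num at this key ⊢
  linarith

/-- Two-variable core of the all-middle case. -/
theorem core {t w : ℝ} (ht : 0 ≤ t) (ht' : t ≤ 3/50) (_hw : 0 ≤ w)
    (hb : w ^ 2 ≤ (t + 1/10) ^ 2 + 1/200) :
    0 ≤ (19/10) * w ^ 4 - (207/100) * t * w ^ 3 + 2 * t ^ 2
      - t * (w ^ 2 + t ^ 2 / 3) * (17/5 + 4 * t) := by
  have h2 : w ≤ 123/1000 + 22/25 * t := by
    by_contra hc
    nlinarith [mul_lt_mul'' (not_le.1 hc) (not_le.1 hc) (by positivity) (by positivity)]
  have e1 : (207/100) * t * w ^ 3 ≤ (207/100) * t * w ^ 2 * (123/1000 + 22/25 * t) := by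
    have := mul_le_mul_of_nonneg_left h2 (by positivity : 0 ≤ (207/100) * t * w ^ 2)
    linarith [this, (by ring : (207/100) * t * w ^ 3 = (207/100) * t * w ^ 2 * w)]
  have e2 : t * (t ^ 2 / 3) * (17/5 + 4 * t) ≤ (2/25) * t ^ 2 := by
    nlinarith [mul_nonneg (sq_nonneg t) (sub_nonneg.2 ht'),
      mul_nonneg (mul_nonneg (sq_nonneg t) ht) (sub_nonneg.2 ht')]
  have hQ : 0 ≤ w ^ 2 := sq_nonneg w
  rcases le_total t (1/25) with h | h
  · have hc : (207/100) * (123/1000 + 22/25 * t) + (17/5 + 4 * t) ≤ 3891/1000 := by linarith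
    have := mul_le_mul_of_nonneg_left hc (mul_nonneg ht hQ)
    nlinarith [sq_nonneg (w ^ 2 - t), sq_nonneg t]
  · have hQt : w ^ 2 ≤ 63/100 * t := by nlinarith
    have hc : (207/100) * (123/1000 + 22/25 * t) + (17/5 + 4 * t) ≤ 401/100 := by linarith
    have := mul_le_mul_of_nonneg_left hc (mul_nonneg ht hQ)
    nlinarith [mul_nonneg (sub_nonneg.2 hQt) (sub_nonneg.2 hQt), mul_nonneg ht (sub_nonneg.2 hQt)]

theorem cube_sum_ge {u v : ℝ} {w : ℝ} (hw : 0 ≤ w) (hQ : w ^ 2 = u ^ 2 + v ^ 2 + (u + v) ^ 2) :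
    -(4083/10000) * w ^ 3 ≤ u ^ 3 + v ^ 3 + (-(u + v)) ^ 3 := by
  have h6 : 6 * (u ^ 3 + v ^ 3 + (-(u + v)) ^ 3) ^ 2 ≤ (w ^ 2) ^ 3 := by
    rw [hQ]
    nlinarith [sq_nonneg ((u - v) * (2 * u + v) * (u + 2 * v))]
  by_contra hc
  nlinarith [mul_lt_mul'' (neg_lt_neg (not_le.1 hc)) (neg_lt_neg (not_le.1 hc))
    (by nlinarith [pow_nonneg hw 3]) (by nlinarith [pow_nonneg hw 3]), pow_nonneg hw 3,
    sq_nonneg (w ^ 3)]

/-- All variables in the middle range and `t ≥ 0`. -/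
theorem middle {x y z : ℝ} (hx : -(1/20) ≤ x) (hy : -(1/20) ≤ y) (hz : -(1/20) ≤ z)
    (hx' : x ≤ 1/5) (hy' : y ≤ 1/5) (hz' : z ≤ 1/5) (ht : 0 ≤ x + y + z) :
    hh x + hh y + hh z ≤ (gp x + gp y + gp z) * (x + y + z) := by
  have n1 := hh_nonpos (d := x) (by linarith)
  have n2 := hh_nonpos (d := y) (by linarith)
  have n3 := hh_nonpos (d := z) (by linarith)
  rcases le_total 0 (gp x + gp y + gp z) with hS | hS
  · linarith [mul_nonneg hS ht]
  set t := x + y + z with htdef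
  have hQ : x ^ 2 + y ^ 2 + z ^ 2 ≤ (t + 1/10) ^ 2 + 1/200 := by
    nlinarith [mul_nonneg (by linarith : (0:ℝ) ≤ x + 1/20) (by linarith : (0:ℝ) ≤ y + 1/20),
      mul_nonneg (by linarith : (0:ℝ) ≤ x + 1/20) (by linarith : (0:ℝ) ≤ z + 1/20),
      mul_nonneg (by linarith : (0:ℝ) ≤ y + 1/20) (by linarith : (0:ℝ) ≤ z + 1/20)]
  have hcub : ∀ e m : ℝ, e ≤ m → e ^ 3 ≤ m * e ^ 2 := fun e m h => by
    nlinarith [mul_nonneg (sq_nonneg e) (sub_nonneg.2 h)]
  have hC5 : x ^ 3 + y ^ 3 + z ^ 3 ≤ 1/5 * (x ^ 2 + y ^ 2 + z ^ 2) := by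
    linarith [hcub x _ hx', hcub y _ hy', hcub z _ hz']
  have hS' : 2 * t ≤ 3 * (x ^ 2 + y ^ 2 + z ^ 2) + 4 * (x ^ 3 + y ^ 3 + z ^ 3) := by
    simp only [gp] at hS; linarith
  have ht6 : t ≤ 3/50 := by
    by_contra hc
    have h38 : 2 * t ≤ 19/5 * (x ^ 2 + y ^ 2 + z ^ 2) := by linarith
    rcases le_total t (1/10) with h | h
    · clear hS hS' hC5 hcub n1 n2 n3
      nlinarith [mul_nonneg (sub_nonneg.2 (le_of_not_ge hc)) (sub_nonneg.2 h)]
    · have q : ∀ e : ℝ, -(1/20) ≤ e → e ≤ 1/5 → e ^ 2 ≤ 3/20 * e + 1/100 := fun e he he' => by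
        nlinarith [mul_nonneg (sub_nonneg.2 he) (sub_nonneg.2 he')]
      linarith [q x hx hx', q y hy hy', q z hz hz']
  have bd : ∀ e : ℝ, -(1/20) ≤ e → e ≤ t + 1/10 → hh e ≤ -(19/5) * e ^ 4 := by
    intro e he he'
    rw [hh_mid he (by linarith)]
    have : 19/5 ≤ (4 + 3 * e) / (1 + e) := by rw [le_div_iff₀ (by linarith)]; linarith
    have := mul_le_mul_of_nonneg_left this (by positivity : 0 ≤ e ^ 4)
    linarith
  have b1 := bd x hx (by linarith)
  have b2 := bd y hy (by linarith)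
  have b3 := bd z hz (by linarith)
  set u := x - t/3 with hu
  set v := y - t/3 with hv
  obtain ⟨w, hw, hw2⟩ : ∃ w : ℝ, 0 ≤ w ∧ w ^ 2 = u ^ 2 + v ^ 2 + (u + v) ^ 2 :=
    ⟨Real.sqrt _, Real.sqrt_nonneg _, Real.sq_sqrt (by positivity)⟩
  have hC := cube_sum_ge hw hw2
  have ex : x = u + t/3 := by rw [hu]; ring
  have ey : y = v + t/3 := by rw [hv]; ring
  have ez : z = -(u + v) + t/3 := by rw [hu, hv]; linarith
  have eQ : x ^ 2 + y ^ 2 + z ^ 2 = w ^ 2 + t ^ 2 / 3 := by rw [hw2, ex, ey, ez]; ring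
  have eF : x ^ 4 + y ^ 4 + z ^ 4 = (w ^ 2) ^ 2 / 2 + 4/3 * t * (u ^ 3 + v ^ 3 + (-(u + v)) ^ 3)
      + 2/3 * t ^ 2 * w ^ 2 + t ^ 4 / 27 := by rw [hw2, ex, ey, ez]; ring
  have hC1 : x ^ 3 + y ^ 3 + z ^ 3 ≤ (t + 1/10) * (w ^ 2 + t ^ 2 / 3) := by
    rw [← eQ]
    linarith [hcub x (t + 1/10) (by linarith), hcub y (t + 1/10) (by linarith),
      hcub z (t + 1/10) (by linarith)]
  have hc := core ht ht6 hw (by linarith [sq_nonneg t, eQ])
  have k1 := mul_le_mul_of_nonneg_left hC (by positivity : 0 ≤ 19/5 * (4/3 * t))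
  have k2 := mul_le_mul_of_nonneg_left hC1 (by positivity : 0 ≤ 4 * t)
  have k3 : 19/5 * (4/3 * t) * (4083/10000 * w ^ 3) ≤ 207/100 * t * w ^ 3 := by
    linarith [mul_nonneg ht (pow_nonneg hw 3)]
  have k4 : 0 ≤ 19/5 * (2/3 * t ^ 2 * w ^ 2 + t ^ 4 / 27) := by positivity
  have eg : (gp x + gp y + gp z) * t = 2 * t ^ 2 - 3 * t * (x ^ 2 + y ^ 2 + z ^ 2)
      - 4 * t * (x ^ 3 + y ^ 3 + z ^ 3) := by simp only [gp, htdef]; ring
  rw [eg, eQ]
  linarith [b1, b2, b3, hc, k1, k2, k3, k4, eF]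

/-- A variable above `-1/20`. -/
theorem high_or_mid {d : ℝ} (h : -(1/20) ≤ d) :
    dpsi d = 31/125 ∧ 1/5 ≤ d ∨ dpsi d = gp d ∧ d ≤ 1/5 := by
  rcases le_total d (1/5) with h' | h'
  · exact .inr ⟨(psi_mid h h').2, h'⟩
  · exact .inl ⟨by rw [dpsi, cl_of_ge h']; norm_num [gp], h'⟩

/-- No variable below `-1/20`. -/
theorem no_low {x y z : ℝ} (hx : -(1/20) ≤ x) (hy : -(1/20) ≤ y) (hz : -(1/20) ≤ z) :
    hh x + hh y + hh z ≤ (dpsi x + dpsi y + dpsi z) * (x + y + z) := by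
  have n1 := hh_nonpos (d := x) (by linarith)
  have n2 := hh_nonpos (d := y) (by linarith)
  have n3 := hh_nonpos (d := z) (by linarith)
  have bx := dpsi_bounds x
  have byy := dpsi_bounds y
  have bz := dpsi_bounds z
  rcases high_or_mid hx with ⟨e, h⟩ | ⟨ex, hx'⟩
  · nlinarith [mul_nonneg (by linarith : 0 ≤ dpsi x + dpsi y + dpsi z)
      (by linarith : 0 ≤ x + y + z)]
  rcases high_or_mid hy with ⟨e, h⟩ | ⟨ey, hy'⟩
  · nlinarith [mul_nonneg (by linarith : 0 ≤ dpsi x + dpsi y + dpsi z)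
      (by linarith : 0 ≤ x + y + z)]
  rcases high_or_mid hz with ⟨e, h⟩ | ⟨ez, hz'⟩
  · nlinarith [mul_nonneg (by linarith : 0 ≤ dpsi x + dpsi y + dpsi z)
      (by linarith : 0 ≤ x + y + z)]
  rw [ex, ey, ez]
  rcases le_total 0 (x + y + z) with ht | ht
  · exact middle hx hy hz hx' hy' hz' ht
  · have hg : ∀ e : ℝ, -(1/20) ≤ e → gp e ≤ 2 * e := fun e he => by
      simp only [gp]; nlinarith [mul_nonneg (sq_nonneg e) (by linarith : 0 ≤ 3 + 4 * e)]
    nlinarith [hg x hx, hg y hy, hg z hz,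
      mul_nonneg (by linarith [hg x hx, hg y hy, hg z hz] : 0 ≤ -(gp x + gp y + gp z))
        (by linarith : 0 ≤ -(x + y + z))]

theorem dpsi_low {d : ℝ} (h : d ≤ -(1/20)) : dpsi d = -(107/1000) := by
  rw [dpsi, cl_of_le h]; norm_num [gp]

theorem dpsi_le_two_mul {d : ℝ} (h : -(1/20) ≤ d) : dpsi d ≤ 2 * d := by
  rcases high_or_mid h with ⟨e, h'⟩ | ⟨e, h'⟩
  · linarith
  · rw [e, gp]; nlinarith [mul_nonneg (sq_nonneg d) (by linarith : 0 ≤ 3 + 4 * d)]

/-- Exactly one low variable, large slope. -/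
theorem one_low {x y z : ℝ} (hx0 : 0 < 1 + x) (hx : x ≤ -(1/20)) (hy : -(1/20) ≤ y)
    (hz : -(1/20) ≤ z) (hS : 23/200 ≤ dpsi x + dpsi y + dpsi z) :
    hh x + hh y + hh z ≤ (dpsi x + dpsi y + dpsi z) * (x + y + z) := by
  have n2 := hh_nonpos (d := y) (by linarith)
  have n3 := hh_nonpos (d := z) (by linarith)
  have e := dpsi_low hx
  have := dpsi_le_two_mul hy
  have := dpsi_le_two_mul hz
  have := (dpsi_bounds y).2
  have := (dpsi_bounds z).2
  set S := dpsi x + dpsi y + dpsi z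
  have hS1 : S ≤ 389/1000 := by simp only [S]; linarith
  have hp : (S + 107/1000) / 2 ≤ y + z := by simp only [S]; linarith
  have key : S * (1 + x) * (17557/160000 + S - S * ((S + 107/1000) / 2) - S * (1 + x))
      ≤ S * (16683/160000) := by
    have hs : (17557/160000 + S - S * ((S + 107/1000) / 2)) ^ 2 ≤ 4 * (S * (16683/160000)) := by
      have tan : ∀ c : ℝ, 17557/160000 + S - S * ((S + 107/1000) / 2)
          ≤ 17557/160000 + c - c * ((c + 107/1000) / 2) + (1 - 107/2000 - c) * (S - c) :=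
        fun c => by nlinarith [sq_nonneg (S - c)]
      have pos : 0 ≤ 17557/160000 + S - S * ((S + 107/1000) / 2) := by nlinarith
      rcases le_total S (1/4) with h1 | h1
      · refine (pow_le_pow_left₀ pos (tan (9/50)) 2).trans ?_
        nlinarith [mul_nonneg (sub_nonneg.2 hS) (sub_nonneg.2 h1)]
      rcases le_total S (8/25) with h2 | h2
      · refine (pow_le_pow_left₀ pos (tan (7/25)) 2).trans ?_
        nlinarith [mul_nonneg (sub_nonneg.2 h1) (sub_nonneg.2 h2)]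
      · refine (pow_le_pow_left₀ pos (tan (9/25)) 2).trans ?_
        nlinarith [mul_nonneg (sub_nonneg.2 h2) (sub_nonneg.2 hS1)]
    nlinarith [sq_nonneg (2 * S * (1 + x) - (17557/160000 + S - S * ((S + 107/1000) / 2)))]
  have hSp : 0 < S := by linarith
  have h1 : 17557/160000 + S - S * ((S + 107/1000) / 2) - S * (1 + x) ≤
      (16683/160000) / (1 + x) := by
    rw [le_div_iff₀ hx0]
    nlinarith [key]
  rw [hh_low hx hx0]
  nlinarith [mul_le_mul_of_nonneg_left hp hSp.le]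

/-- Replacing `x` by its raised value reduces the claim. -/
theorem raise_step {x y z : ℝ} (hx0 : 0 < 1 + x) (hx : x ≤ -(1/20))
    (hS : dpsi x + dpsi y + dpsi z ≤ 23/200)
    (h : hh (-(1/20)) + hh y + hh z ≤
      (dpsi (-(1/20)) + dpsi y + dpsi z) * (-(1/20) + y + z)) :
    hh x + hh y + hh z ≤ (dpsi x + dpsi y + dpsi z) * (x + y + z) := by
  have := raise hx0 hx hS
  rw [dpsi_low hx] at this ⊢
  rw [dpsi_low le_rfl] at h
  linarith

/-- At most one variable below `-1/20`. -/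
theorem one_le_low {x y z : ℝ} (hx0 : 0 < 1 + x) (hy : -(1/20) ≤ y) (hz : -(1/20) ≤ z) :
    hh x + hh y + hh z ≤ (dpsi x + dpsi y + dpsi z) * (x + y + z) := by
  rcases le_total (-(1/20)) x with hx | hx
  · exact no_low hx hy hz
  rcases le_total (dpsi x + dpsi y + dpsi z) (23/200) with hS | hS
  · exact raise_step hx0 hx hS (no_low le_rfl hy hz)
  · exact one_low hx0 hx hy hz hS

/-- At most two variables below `-1/20`. -/
theorem two_le_low {x y z : ℝ} (hx0 : 0 < 1 + x) (hy0 : 0 < 1 + y) (hz : -(1/20) ≤ z) :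
    hh x + hh y + hh z ≤ (dpsi x + dpsi y + dpsi z) * (x + y + z) := by
  rcases le_total (-(1/20)) x with hx | hx
  · have := one_le_low hy0 hx hz; linarith
  rcases le_total (-(1/20)) y with hy | hy
  · exact one_le_low hx0 hy hz
  · refine raise_step hx0 hx ?_ ?_
    · linarith [dpsi_low hx, dpsi_low hy, (dpsi_bounds z).2]
    · have := one_le_low hy0 (x := y) (y := -(1/20)) le_rfl hz; linarith

/-- The drift inequality. -/
theorem drift_le {x y z : ℝ} (hx0 : 0 < 1 + x) (hy0 : 0 < 1 + y) (hz0 : 0 < 1 + z) :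
    hh x + hh y + hh z ≤ (dpsi x + dpsi y + dpsi z) * (x + y + z) := by
  rcases le_total (-(1/20)) z with hz | hz
  · exact two_le_low hx0 hy0 hz
  rcases le_total (-(1/20)) y with hy | hy
  · have := two_le_low hx0 hz0 hy; linarith
  · rcases le_total (-(1/20)) x with hx | hx
    · have := two_le_low hy0 hz0 hx; linarith
    · refine raise_step hx0 hx ?_ ?_
      · linarith [dpsi_low hx, dpsi_low hy, dpsi_low hz]
      · have := two_le_low (x := y) (y := z) (z := -(1/20)) hy0 hz0 le_rfl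
        linarith

end P046
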