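import Vale.Agent.P046.Drift

/-!
P046: the leave of a regular linear 3-uniform hypergraph has at most `K N √(log D / D)` nodes,
except with probability `O(1/K²)`.
-/

namespace P046

open Finset

/-- The concave transform of `Y`. -/
noncomputable def conc (Y : ℝ) : ℝ := Y / (1 + 8000/3 * Real.sqrt Y) ^ 2

theorem conc_nonneg {Y : ℝ} (h : 0 ≤ Y) : 0 ≤ conc Y := div_nonneg h (sq_nonneg _)

theorem conc_tangent {Y Y' : ℝ} (hY : 0 ≤ Y) (hY' : 0 ≤ Y') :
    conc Y' ≤ conc Y + (Y' - Y) / (1 + 8000/3 * Real.sqrt Y) ^ 3 := by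
  obtain ⟨s, hs, rfl⟩ : ∃ s : ℝ, 0 ≤ s ∧ Y = s ^ 2 :=
    ⟨Real.sqrt Y, Real.sqrt_nonneg _, (Real.sq_sqrt hY).symm⟩
  obtain ⟨r, hr, rfl⟩ : ∃ r : ℝ, 0 ≤ r ∧ Y' = r ^ 2 :=
    ⟨Real.sqrt Y', Real.sqrt_nonneg _, (Real.sq_sqrt hY').symm⟩
  rw [conc, conc, Real.sqrt_sq hs, Real.sqrt_sq hr]
  have hp : 0 < 1 + 8000/3 * r := by positivity
  have hq : 0 < 1 + 8000/3 * s := by positivity
  rw [div_add_div _ _ (by positivity) (by positivity),
    div_le_div_iff₀ (by positivity) (by positivity)]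
  have key : 0 ≤ (r - s) ^ 2 * (8000/3 * (2 * r + s) + (8000/3) ^ 2 * (r * (r + 2 * s))) := by
    positivity
  have e : (s ^ 2 * (1 + 8000/3 * s) ^ 3 + (1 + 8000/3 * s) ^ 2 * (r ^ 2 - s ^ 2))
      * (1 + 8000/3 * r) ^ 2 - r ^ 2 * ((1 + 8000/3 * s) ^ 2 * (1 + 8000/3 * s) ^ 3)
      = (1 + 8000/3 * s) ^ 2
        * ((r - s) ^ 2 * (8000/3 * (2 * r + s) + (8000/3) ^ 2 * (r * (r + 2 * s)))) := by ring
  nlinarith [mul_nonneg (sq_nonneg (1 + 8000/3 * s)) key]

theorem conc_big {Y : ℝ} (h : 1 / 100000000 ≤ Y) : 1 / 200000000 ≤ conc Y := by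
  have h0 : 0 ≤ Y := le_trans (by norm_num) h
  obtain ⟨s, hs, rfl⟩ : ∃ s : ℝ, 0 ≤ s ∧ Y = s ^ 2 :=
    ⟨Real.sqrt Y, Real.sqrt_nonneg _, (Real.sq_sqrt h0).symm⟩
  have hs' : 1 / 10000 ≤ s := by
    by_contra hc
    nlinarith [not_le.1 hc]
  rw [conc, Real.sqrt_sq hs, le_div_iff₀ (by positivity)]
  have : 1 + 8000/3 * s ≤ (10000 + 8000/3) * s := by linarith
  nlinarith [pow_le_pow_left₀ (by positivity) this 2]

namespace LH

variable {α : Type} [DecidableEq α] {L : LH α} {D N : ℝ}

theorem Yf_nonneg (W : Finset α) : 0 ≤ L.Yf D N W :=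
  add_nonneg (div_nonneg (Finset.sum_nonneg fun a _ => psi_nonneg _) (Nat.cast_nonneg _))
    (mul_nonneg (by norm_num) (sq_nonneg _))

/-- The supermartingale, normalised by the threshold `E1`. -/
noncomputable def sup (L : LH α) (D N E1 : ℝ) (W : Finset α) : ℝ :=
  200000000 / E1 ^ 2 * (conc (L.Yf D N W) * ((W.card : ℝ) * ((W.card : ℝ) + 3))
    + 31000/3 * (N ^ 2 / D) * max (Real.log ((W.card : ℝ) / (E1 - 3))) 0)

theorem sup_nonneg (hD : 0 ≤ D) (E1 : ℝ) (W : Finset α) : 0 ≤ L.sup D N E1 W :=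
  mul_nonneg (by positivity) (add_nonneg (mul_nonneg (conc_nonneg (Yf_nonneg W)) (by positivity))
    (mul_nonneg (by positivity) (le_max_right _ _)))

theorem avg_sup_le {E1 : ℝ} {W : Finset α} (hD : 0 < D) (hN : 0 < N) (hDN : D ≤ N)
    (hWN : (W.card : ℝ) ≤ N) (hE1 : 1000 * N / Real.sqrt D ≤ E1) (hE6 : 6 ≤ E1)
    (hE : E1 < W.card) (hY : L.Yf D N W ≤ 1 / 100000000) :
    L.tris W ≠ ∅ ∧ L.avg (L.sup D N E1) W ≤ L.sup D N E1 W := by
  set E : ℝ := (W.card : ℝ) with hEdef
  have hE0 : 0 < E := by linarith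
  have hu6 : 1000000 ≤ uu D N W := by
    have h1 : 1000 / Real.sqrt D ≤ E / N := by
      rw [le_div_iff₀ hN, div_mul_eq_mul_div]; linarith
    calc (1000000 : ℝ) = D * (1000 / Real.sqrt D) ^ 2 := by
          rw [div_pow, Real.sq_sqrt hD.le]; field_simp; norm_num
      _ ≤ uu D N W := mul_le_mul_of_nonneg_left (pow_le_pow_left₀ (by positivity) h1 2) hD.le
  have hu : 0 < uu D N W := by linarith
  have huE : uu D N W ≤ E := by
    have h1 : E / N ≤ 1 := (div_le_one hN).2 hWN
    calc uu D N W = E * (D / N * (E / N)) := by rw [uu, ← hEdef]; field_simp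
      _ ≤ E * (1 * 1) := mul_le_mul_of_nonneg_left
          (mul_le_mul ((div_le_one hN).2 hDN) h1 (by positivity) zero_le_one) hE0.le
      _ = E := by ring
  have hY0 := Yf_nonneg (L := L) (D := D) (N := N) W
  have hμ : |L.muu D N W| ≤ 1/2 := by
    have h1 : L.muu D N W ^ 2 ≤ L.Yf D N W := by
      have : 0 ≤ L.Psum D N W / E := div_nonneg (Finset.sum_nonneg fun a _ => psi_nonneg _) hE0.le
      rw [Yf, ← hEdef]; linarith [sq_nonneg (L.muu D N W)]
    exact abs_le_of_sq_le_sq (by nlinarith) (by norm_num)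
  have hT : L.tris W ≠ ∅ := by
    intro h
    have : L.muu D N W = -1 := by simp [muu, h]
    rw [this] at hμ; norm_num at hμ
  refine ⟨hT, ?_⟩
  have hTpos := card_pos (L := L) hT
  have hE' : 0 < E - 3 := by linarith
  set s := 1 + 8000/3 * Real.sqrt (L.Yf D N W) with hs
  have hs0 : 0 < s := by positivity
  have k := sum_Yf_le (L := L) hu hu6 huE hY
  have hc : ∑ t ∈ L.tris W, conc (L.Yf D N (W \ t)) ≤ ((L.tris W).card : ℝ) *
      (conc (L.Yf D N W) * (1 + 6 / (E - 3)) + 31000 / uu D N W / (E - 3)) := by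
    refine (Finset.sum_le_sum fun t _ => conc_tangent hY0 (Yf_nonneg _)).trans ?_
    rw [Finset.sum_add_distrib, Finset.sum_const, nsmul_eq_mul, ← Finset.sum_div,
      Finset.sum_sub_distrib, Finset.sum_const, nsmul_eq_mul, ← hs, mul_add,
      ← sub_le_iff_le_add']
    rw [← hEdef] at k
    have h1 : (6 * L.Yf D N W + 16000 * Real.sqrt (L.Yf D N W) * L.Yf D N W
        + 31000 / uu D N W) / s ^ 3
        ≤ conc (L.Yf D N W) * 6 + 31000 / uu D N W := by
      rw [add_div, conc, ← hs]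
      refine add_le_add (le_of_eq ?_) (div_le_self (by positivity) (one_le_pow₀ ?_))
      · field_simp
        rw [hs]; ring
      · rw [hs]; linarith [Real.sqrt_nonneg (L.Yf D N W)]
    calc _ = (∑ t ∈ L.tris W, L.Yf D N (W \ t) - ((L.tris W).card : ℝ) * L.Yf D N W) / s ^ 3
          + ((L.tris W).card : ℝ) * conc (L.Yf D N W)
          - ((L.tris W).card : ℝ) * (conc (L.Yf D N W) * (1 + 6 / (E - 3))) := by ring
      _ ≤ ((L.tris W).card : ℝ) * ((6 * L.Yf D N W + 16000 * Real.sqrt (L.Yf D N W) * L.Yf D N W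
            + 31000 / uu D N W) / s ^ 3) / (E - 3)
          + ((L.tris W).card : ℝ) * conc (L.Yf D N W)
          - ((L.tris W).card : ℝ) * (conc (L.Yf D N W) * (1 + 6 / (E - 3))) := by
          refine sub_le_sub_right (add_le_add_left ?_ _) _
          rw [div_le_iff₀ (by positivity), ← mul_div_assoc, div_div, div_mul_eq_mul_div,
            le_div_iff₀ (by positivity)]
          rw [mul_add, ← sub_le_iff_le_add', ← mul_div_assoc, le_div_iff₀ hE'] at k
          nlinarith [mul_le_mul_of_nonneg_right k (by positivity : 0 ≤ s ^ 3)]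
      _ ≤ ((L.tris W).card : ℝ) * (conc (L.Yf D N W) * 6 + 31000 / uu D N W) / (E - 3)
          + ((L.tris W).card : ℝ) * conc (L.Yf D N W)
          - ((L.tris W).card : ℝ) * (conc (L.Yf D N W) * (1 + 6 / (E - 3))) :=
          sub_le_sub_right (add_le_add_left
            (div_le_div_of_nonneg_right (mul_le_mul_of_nonneg_left h1 hTpos.le) hE'.le) _) _
      _ = _ := by ring
  have hlog : max (Real.log ((E - 3) / (E1 - 3))) 0 + 3 / E
      ≤ max (Real.log (E / (E1 - 3))) 0 := by
    have h0 : 0 < E1 - 3 := by linarith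
    have h1 : 1 ≤ (E - 3) / (E1 - 3) := (one_le_div h0).2 (by linarith)
    have h2 : 1 ≤ E / (E1 - 3) := (one_le_div h0).2 (by linarith)
    rw [max_eq_left (Real.log_nonneg h1), max_eq_left (Real.log_nonneg h2),
      Real.log_div hE'.ne' h0.ne', Real.log_div hE0.ne' h0.ne']
    have h3 := Real.log_le_sub_one_of_pos (show 0 < (E - 3) / E by positivity)
    rw [Real.log_div hE'.ne' hE0.ne', show (E - 3) / E - 1 = -(3 / E) by field_simp; ring] at h3
    linarith
  rw [avg, div_le_iff₀ hTpos]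
  simp only [sup]
  rw [← Finset.mul_sum, mul_assoc (200000000 / E1 ^ 2)]
  refine mul_le_mul_of_nonneg_left ?_ (by positivity)
  rw [Finset.sum_congr rfl fun t ht => by rw [cast_card_sdiff ht], Finset.sum_add_distrib,
    ← Finset.sum_mul, Finset.sum_const, nsmul_eq_mul, ← hEdef]
  have h5 : 31000 / uu D N W * E = 31000/3 * (N ^ 2 / D) * (3 / E) := by
    rw [uu, ← hEdef]; field_simp
  have h6 := mul_le_mul_of_nonneg_right hc (by positivity : 0 ≤ (E - 3) * (E - 3 + 3))
  have h7 := mul_le_mul_of_nonneg_left hlog (by positivity : 0 ≤ ((L.tris W).card : ℝ) * (31000/3 * (N ^ 2 / D)))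
  have e8 : ((L.tris W).card : ℝ) * (conc (L.Yf D N W) * (1 + 6 / (E - 3))
      + 31000 / uu D N W / (E - 3)) * ((E - 3) * (E - 3 + 3))
      = ((L.tris W).card : ℝ) * (conc (L.Yf D N W) * (E * (E + 3)) + 31000 / uu D N W * E) := by
    field_simp; ring
  rw [e8, h5] at h6
  ring_nf at h6 h7 ⊢
  linarith

/-- The initial value of the supermartingale. -/
theorem sup_init_le {U : Finset α} {E1 : ℝ} (hD : 0 < D) (hN : (U.card : ℝ) = N)
    (hreg : ∀ a ∈ U, (L.deg U a : ℝ) = D) (hE6 : 6 ≤ E1) (hE1N : E1 ≤ N) :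
    L.sup D N E1 U ≤ 3000000000000 * (N ^ 2 / (D * E1 ^ 2)) * Real.log (2 * N / E1) := by
  have hN0 : 0 < N := by linarith
  have hu : uu D N U = D := by rw [uu, hN, div_self hN0.ne']; ring
  have hdd : ∀ a ∈ U, L.dd D N U a = 0 := fun a ha => by
    rw [dd, hu, hreg a ha, div_self hD.ne', sub_self]
  have hμ : L.muu D N U = 0 := by
    have := sum_dd (L := L) (D := D) (N := N) (W := U) (by rw [hu]; exact hD)
    rw [Finset.sum_eq_zero hdd, hN] at this
    exact (mul_eq_zero.1 this.symm).resolve_left hN0.ne'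
  have hY : L.Yf D N U = 0 := by
    rw [Yf, hμ, Psum, Finset.sum_eq_zero fun a ha => by rw [hdd a ha]; norm_num [psi, cl, gp]]
    simp
  rw [sup, hY, conc, zero_div, zero_mul, zero_add, hN]
  have h1 : 1 ≤ N / (E1 - 3) := (one_le_div (by linarith)).2 (by linarith)
  have h2 : N / (E1 - 3) ≤ 2 * N / E1 := by
    rw [div_le_div_iff₀ (by linarith) (by linarith)]; nlinarith
  rw [max_eq_left (Real.log_nonneg h1)]
  have h3 := Real.log_le_log (by linarith) h2
  have h4 : 0 ≤ N ^ 2 / (D * E1 ^ 2) := by positivity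
  calc 200000000 / E1 ^ 2 * (31000/3 * (N ^ 2 / D) * Real.log (N / (E1 - 3)))
      = 200000000 * (31000/3) * (N ^ 2 / (D * E1 ^ 2)) * Real.log (N / (E1 - 3)) := by
        field_simp
    _ ≤ _ := mul_le_mul (mul_le_mul_of_nonneg_right (by norm_num) h4) h3 (Real.log_nonneg h1)
        (by positivity)

/-- Off the good region the supermartingale is at least one. -/
theorem one_le_sup {W : Finset α} {E1 : ℝ} (hD : 0 ≤ D) (hE6 : 6 ≤ E1) (hE : E1 ≤ W.card)
    (hY : 1 / 100000000 < L.Yf D N W) : 1 ≤ L.sup D N E1 W := by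
  have h1 := conc_big hY.le
  have h2 : E1 ^ 2 ≤ (W.card : ℝ) * ((W.card : ℝ) + 3) := by nlinarith
  calc (1 : ℝ) = 200000000 / E1 ^ 2 * (1 / 200000000 * E1 ^ 2) := by field_simp
    _ ≤ L.sup D N E1 W := by
        refine mul_le_mul_of_nonneg_left (le_trans (mul_le_mul h1 h2 (sq_nonneg _)
          (le_trans (by norm_num) h1)) (le_add_of_nonneg_right ?_)) (by positivity)
        exact mul_nonneg (by positivity) (le_max_right _ _)

/-- The tail bound, for a threshold. -/
theorem tail_le {U : Finset α} {E1 : ℝ} (hD : 0 < D) (hDN : D ≤ N) (hN : (U.card : ℝ) = N)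
    (hreg : ∀ a ∈ U, (L.deg U a : ℝ) = D) (hE1 : 1000 * N / Real.sqrt D ≤ E1) (hE6 : 6 ≤ E1)
    (hE1N : E1 ≤ N) :
    L.ex (fun W => if E1 < (W.card : ℝ) then 1 else 0) U
      ≤ 3000000000000 * (N ^ 2 / (D * E1 ^ 2)) * Real.log (2 * N / E1) := by
  have hN0 : 0 < N := by linarith
  refine (ex_le (Φ := L.sup D N E1) fun W hW => ?_).trans ?_
  · by_cases hE : (W.card : ℝ) ≤ E1
    · left
      intro W' hW'
      have : (W'.card : ℝ) ≤ E1 := le_trans (by exact_mod_cast Finset.card_le_card hW') hE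
      rw [if_neg (by linarith)]
      exact sup_nonneg hD.le E1 W
    rw [not_le] at hE
    by_cases hY : L.Yf D N W ≤ 1 / 100000000
    · right
      exact avg_sup_le hD hN0 hDN (hN ▸ by exact_mod_cast Finset.card_le_card hW) hE1 hE6 hE hY
    · left
      intro W' _
      exact le_trans (by split_ifs <;> norm_num : _ ≤ (1 : ℝ))
        (one_le_sup hD.le hE6 hE.le (not_le.1 hY))
  · exact sup_init_le hD hN hreg hE6 hE1N

/-- The tail bound. -/
theorem tail {U : Finset α} (hD : 3 ≤ D) (hDN : D ≤ N) (hN : (U.card : ℝ) = N)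
    (hreg : ∀ a ∈ U, (L.deg U a : ℝ) = D) {K : ℝ} (hK : 0 < K) :
    L.ex (fun W => if K * (N * Real.sqrt (Real.log D / D)) < (W.card : ℝ) then 1 else 0) U
      ≤ 3000000000000 / K ^ 2 := by
  have hl : 1 ≤ Real.log D := by
    rw [Real.le_log_iff_exp_le (by linarith)]
    exact le_trans Real.exp_one_lt_d9.le (by linarith)
  have hle1 : L.ex (fun W => if K * (N * Real.sqrt (Real.log D / D)) < (W.card : ℝ) then 1 else 0) U
      ≤ 1 := by
    conv_rhs => rw [← ex_const (L := L) (1 : ℝ) U]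
    exact ex_mono fun W _ => by split_ifs <;> norm_num
  rcases le_total K 1000 with hK1 | hK1
  · refine hle1.trans ?_
    rw [le_div_iff₀ (by positivity)]; nlinarith
  have hN0 : 0 < N := by linarith
  rcases le_total N (K * (N * Real.sqrt (Real.log D / D))) with hbig | hbig
  · refine le_trans ?_ (by positivity : (0:ℝ) ≤ 3000000000000 / K ^ 2)
    conv_rhs => rw [← ex_const (L := L) (0 : ℝ) U]
    refine ex_mono fun W hW => ?_
    have : (W.card : ℝ) ≤ N := hN ▸ by exact_mod_cast Finset.card_le_card hW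
    rw [if_neg (by linarith)]
  set E1 := K * (N * Real.sqrt (Real.log D / D)) with hE1
  have hsD : 0 < Real.sqrt D := Real.sqrt_pos.2 (by linarith)
  have e : E1 = K * N / Real.sqrt D * Real.sqrt (Real.log D) := by
    rw [hE1, Real.sqrt_div (by linarith)]; ring
  have hsl : 1 ≤ Real.sqrt (Real.log D) := Real.one_le_sqrt.2 hl
  have h1 : K * N / Real.sqrt D ≤ E1 := by
    rw [e]; exact le_mul_of_one_le_right (by positivity) hsl
  have h2 : 1000 * N / Real.sqrt D ≤ K * N / Real.sqrt D :=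
    div_le_div_of_nonneg_right (mul_le_mul_of_nonneg_right hK1 hN0.le) hsD.le
  have h3 : Real.sqrt D ≤ N / Real.sqrt D := by
    rw [le_div_iff₀ hsD, Real.mul_self_sqrt (by linarith)]; exact hDN
  have h4 : 1 ≤ Real.sqrt D := Real.one_le_sqrt.2 (by linarith)
  have h5 : 6 ≤ E1 := by
    have : 1000 * N / Real.sqrt D = 1000 * (N / Real.sqrt D) := by ring
    linarith
  refine (tail_le (by linarith) hDN hN hreg (h2.trans h1) h5 hbig).trans ?_
  have h6 : N ^ 2 / (D * E1 ^ 2) = 1 / (K ^ 2 * Real.log D) := by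
    rw [e, mul_pow, div_pow, Real.sq_sqrt (by linarith), Real.sq_sqrt (by linarith)]
    field_simp
  have h7 : Real.log (2 * N / E1) ≤ Real.log D := by
    refine Real.log_le_log (by positivity) ?_
    rw [div_le_iff₀ (by linarith)]
    calc 2 * N ≤ D * (1000 * N / Real.sqrt D) := by
          rw [mul_div_assoc', le_div_iff₀ hsD]
          have h8 : Real.sqrt D ≤ D := by nlinarith [Real.mul_self_sqrt (show 0 ≤ D by linarith)]
          nlinarith [mul_le_mul_of_nonneg_left h8 hN0.le]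
      _ ≤ D * E1 := mul_le_mul_of_nonneg_left (h2.trans h1) (by linarith)
  rw [h6]
  calc 3000000000000 * (1 / (K ^ 2 * Real.log D)) * Real.log (2 * N / E1)
      ≤ 3000000000000 * (1 / (K ^ 2 * Real.log D)) * Real.log D :=
        mul_le_mul_of_nonneg_left h7 (by positivity)
    _ = 3000000000000 / K ^ 2 := by field_simp

/-- The expected number of remaining nodes. -/
theorem mean_le {U : Finset α} (hD : 3 ≤ D) (hDN : D ≤ N) (hN : (U.card : ℝ) = N)
    (hreg : ∀ a ∈ U, (L.deg U a : ℝ) = D) :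
    L.ex (fun W => (W.card : ℝ)) U ≤ 7000000000000 * (N * Real.sqrt (Real.log D / D)) := by
  set s := N * Real.sqrt (Real.log D / D) with hs
  have hs0 : 0 < s := by
    have : 0 < Real.log D := Real.log_pos (by linarith)
    have : 0 < N := by linarith
    have : 0 < D := by linarith
    positivity
  -- dyadic decomposition
  have key : ∀ J : ℕ, L.ex (fun W => min (W.card : ℝ) (2 ^ J * s)) U
      ≤ s * (1 + 3000000000000 * (2 - 2 / 2 ^ J)) := by
    intro J
    induction J with
    | zero =>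
      refine (ex_mono (g := fun _ => s) fun W _ => by simp).trans ?_
      rw [ex_const]; simp
    | succ J ih =>
      have step : ∀ W : Finset α, W ⊆ U → min (W.card : ℝ) (2 ^ (J + 1) * s)
          ≤ min (W.card : ℝ) (2 ^ J * s)
            + 2 ^ J * s * (if 2 ^ J * s < (W.card : ℝ) then 1 else 0) := by
        intro W _
        have h2 : (0:ℝ) < 2 ^ J := by positivity
        split_ifs with h
        · rw [min_eq_right (le_of_lt h)]
          exact (min_le_right _ _).trans (by rw [pow_succ]; linarith)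
        · rw [min_eq_left (not_lt.1 h), mul_zero, add_zero]
          exact min_le_left _ _
      refine (ex_mono step).trans ?_
      rw [ex_add, ex_mul]
      have ht := tail (L := L) hD hDN hN hreg (K := 2 ^ J) (by positivity)
      have h2 : (0:ℝ) < 2 ^ J := by positivity
      refine (add_le_add ih (mul_le_mul_of_nonneg_left ht (by positivity))).trans (le_of_eq ?_)
      rw [pow_succ]
      field_simp
      ring
  obtain ⟨J, hJ⟩ := pow_unbounded_of_one_lt (N / s) (by norm_num : (1:ℝ) < 2)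
  refine le_trans (ex_mono fun W hW => ?_) ((key J).trans ?_)
  · have : (W.card : ℝ) ≤ N := hN ▸ by exact_mod_cast Finset.card_le_card hW
    refine le_min le_rfl (this.trans ?_)
    rw [div_lt_iff₀ hs0] at hJ
    linarith
  · have : 0 ≤ (2:ℝ) / 2 ^ J := by positivity
    calc s * (1 + 3000000000000 * (2 - 2 / 2 ^ J)) ≤ s * 7000000000000 :=
          mul_le_mul_of_nonneg_left (by linarith) hs0.le
      _ = _ := mul_comm _ _

end LH

end P046
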